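import Crest.Agent.R264.P1.FlowB

/-! Row 264, P1: finite-dimensional spaces of vector fields.

`finiteDimensional_of_flow`: the real linear map `X ↦ (X x0, (D X x0).comp (T x0).subtypeL)` (or the
values on a basis of `T x0`) to a finite-dimensional space is injective (`eq_zero_of_jet`); linearity
by `tD_add`, `tD_real_smul`.
`mem_of_tendsto`, `tendsto_lin`: the real linear map `S → (CN N → CN N)` is injective, the target is a
Hausdorff topological vector space (product topology): `Submodule.closed_of_finiteDimensional`,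
`LinearMap.continuous_of_finiteDimensional` / `LinearMap.isClosedEmbedding_of_injective`; off `U` all
fields vanish. -/

set_option autoImplicit false
open Set Filter Topology Metric Complex

noncomputable section
namespace Crest.Agent.R264.TM
variable (M : TM)

/-- The one-jet of a vector field at a point, as a real linear map. -/
def finJet {x : CN M.N} (hx : x ∈ M.U) : M.VF →ₗ[ℝ] CN M.N × (M.T x →ₗ[ℂ] CN M.N) where
  toFun X := ((X : CN M.N → CN M.N) x,
    ((M.D (X : CN M.N → CN M.N) x : CN M.N →L[ℂ] CN M.N) : CN M.N →ₗ[ℂ] CN M.N).comp (M.T x).subtype)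
  map_add' X Y := by
    refine Prod.ext rfl (LinearMap.ext fun v => ?_)
    exact tD_add (X.2.1.differentiableWithinAt hx) (Y.2.1.differentiableWithinAt hx) v.2
  map_smul' a X := by
    refine Prod.ext rfl (LinearMap.ext fun v => ?_)
    exact tD_real_smul a (X.2.1.differentiableWithinAt hx) v.2

theorem fin_tendsto_pi {ι : Type*} {l : Filter ι} {W : ι → M.VF} {W0 : M.VF}
    (h : ∀ y ∈ M.U, Tendsto (fun i => (W i : CN M.N → CN M.N) y) l (𝓝 ((W0 : CN M.N → CN M.N) y))) :
    Tendsto (fun i => (W i : CN M.N → CN M.N)) l (𝓝 (W0 : CN M.N → CN M.N)) := by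
  refine tendsto_pi_nhds.2 fun y => ?_
  by_cases hy : y ∈ M.U
  · exact h y hy
  · rw [W0.2.2.2 y hy]
    exact tendsto_const_nhds.congr fun i => ((W i).2.2.2 y hy).symm


theorem finiteDimensional_of_flow (S : Submodule ℝ M.VF)
    (hS : ∀ X ∈ S, ∃ θ, M.IsFlow (X : CN M.N → CN M.N) θ) : FiniteDimensional ℝ S := by
  obtain ⟨x, hx⟩ := M.conn.nonempty
  have : Module.Finite ℝ (M.T x →ₗ[ℂ] CN M.N) := Module.Finite.trans ℂ _
  refine FiniteDimensional.of_injective ((M.finJet hx).comp S.subtype) ?_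
  rw [injective_iff_map_eq_zero]
  intro X hX
  obtain ⟨θ, hθ⟩ := hS X X.2
  refine Subtype.ext (hθ.eq_zero_of_jet hx (congrArg Prod.fst hX) fun v hv => ?_)
  exact LinearMap.congr_fun (congrArg Prod.snd hX) ⟨v, hv⟩

theorem mem_of_tendsto (S : Submodule ℝ M.VF) [FiniteDimensional ℝ S] {ι : Type*} {l : Filter ι}
    [l.NeBot] {W : ι → M.VF} (hW : ∀ᶠ i in l, W i ∈ S) {W0 : M.VF}
    (h : ∀ y ∈ M.U, Tendsto (fun i => (W i : CN M.N → CN M.N) y) l (𝓝 ((W0 : CN M.N → CN M.N) y))) :
    W0 ∈ S := by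
  let ι' : M.VF →ₗ[ℝ] (CN M.N → CN M.N) := M.VF.subtype.restrictScalars ℝ
  have hc : IsClosed ((S.map ι' : Submodule ℝ (CN M.N → CN M.N)) : Set (CN M.N → CN M.N)) :=
    Submodule.closed_of_finiteDimensional _
  have hm : (W0 : CN M.N → CN M.N) ∈ S.map ι' :=
    hc.mem_of_tendsto (M.fin_tendsto_pi h) (hW.mono fun i hi => Submodule.mem_map_of_mem hi)
  obtain ⟨Y, hY, e⟩ := hm
  have : Y = W0 := Subtype.ext e
  exact this ▸ hY

theorem tendsto_lin {S V : Type*} [AddCommGroup S] [Module ℝ S] [FiniteDimensional ℝ S]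
    [NormedAddCommGroup V] [NormedSpace ℝ V] (j : S →ₗ[ℝ] M.VF) (hj : Function.Injective j)
    (φ : S →ₗ[ℝ] V) {ι : Type*} {l : Filter ι} {W : ι → S} {W0 : S}
    (h : ∀ y ∈ M.U, Tendsto (fun i => (j (W i) : CN M.N → CN M.N) y) l
      (𝓝 ((j W0 : CN M.N → CN M.N) y))) :
    Tendsto (fun i => φ (W i)) l (𝓝 (φ W0)) := by
  let ι' : S →ₗ[ℝ] (CN M.N → CN M.N) := (M.VF.subtype.restrictScalars ℝ).comp j
  have hι : Function.Injective ι' := Subtype.val_injective.comp hj
  let e : S ≃ₗ[ℝ] LinearMap.range ι' := LinearEquiv.ofInjective ι' hι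
  have hc : Continuous (φ.comp e.symm.toLinearMap) := LinearMap.continuous_of_finiteDimensional _
  have ht : Tendsto (fun i => e (W i)) l (𝓝 (e W0)) :=
    tendsto_subtype_rng.2 (M.fin_tendsto_pi h)
  simpa [Function.comp_def] using (hc.tendsto _).comp ht

end Crest.Agent.R264.TM
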