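import Crest.Agent.R264.Aut
import Crest.Agent.R264.SCV3

/-! Row 264, P1: complete holomorphic vector fields generate flows.

In a chart the field is `X' u = fderiv l (c u) (X (c u))`, holomorphic on `ch.s`, with
`X (c u) = fderiv c u (X' u)` (`fderiv_c_l`).
`curve_unique_U`: the set of times where the curves agree is closed, and open by `curve_unique` (SCV3)
applied to `l ∘ γ` in a chart (`ev_mem`).
`local_flow_U`: `Φ' t y = c (Φ (t, l y))` from `exists_local_flow`, restricted to real times.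
`flow_of_complete`: `θ t x = c_x t`; `θ (s+t) = θ s ∘ θ t` by uniqueness; for fixed `x0` the set of `t` with
`θ t` `Hol` near `x0` is clopen: near `t0` use the local flow at `θ t0 x0`, `θ s = θ (s - t) ∘ θ t`;
`Hol.of_local`, `exists_aut`, `aut_ext`. -/

set_option autoImplicit false
open Set Filter Topology Metric Complex

noncomputable section
namespace Crest.Agent.R264.TM
variable (M : TM)

theorem cmpl_field (X : M.VF) (ch : Chart M.n M.U) : DifferentiableOn ℂ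
    (fun u => fderiv ℂ ch.l (ch.c u) ((X : CN M.N → CN M.N) (ch.c u))) ch.s := by
  have h1 : DifferentiableOn ℂ (fderiv ℂ ch.l) univ :=
    differentiableOn_fderiv isOpen_univ ch.l_diff.differentiableOn
  have h2 : DifferentiableOn ℂ (fun u => fderiv ℂ ch.l (ch.c u)) ch.s :=
    h1.comp ch.c_diff (mapsTo_univ _ _)
  exact h2.clm_apply (ch.hol_comp X.2.1)

theorem cmpl_curve (X : M.VF) (ch : Chart M.n M.U) {c : ℝ → CN M.N} {s : ℝ}
    (hc : HasDerivAt c ((X : CN M.N → CN M.N) (c s)) s) (hs : ch.c (ch.l (c s)) = c s) :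
    HasDerivAt (fun t => ch.l (c t)) ((fun u => fderiv ℂ ch.l (ch.c u)
      ((X : CN M.N → CN M.N) (ch.c u))) ((fun t => ch.l (c t)) s)) s := by
  have h1 := ((ch.l_diff (c s)).hasFDerivAt.restrictScalars ℝ).comp_hasDerivAt s hc
  simp only [hs]
  exact h1

theorem cmpl_ev (ch : Chart M.n M.U) {u : CN M.n} (hu : u ∈ ch.s) {c : ℝ → CN M.N} {t : ℝ}
    (hc : ContinuousAt c t) (hU : ∀ᶠ s in 𝓝 t, c s ∈ M.U) (ht : ch.c u = c t) :
    ∀ᶠ s in 𝓝 t, ch.l (c s) ∈ ch.s ∧ ch.c (ch.l (c s)) = c s := by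
  have h1 : Tendsto c (𝓝 t) (𝓝[M.U] (ch.c u)) := by
    rw [ht]
    exact tendsto_nhdsWithin_iff.2 ⟨hc, hU⟩
  exact h1.eventually (ch.ev_mem hu)

theorem curve_unique_U (X : M.VF) {c c' : ℝ → CN M.N} {a b : ℝ}
    (hc : ∀ s ∈ Ioo a b, c s ∈ M.U ∧ HasDerivAt c ((X : CN M.N → CN M.N) (c s)) s)
    (hc' : ∀ s ∈ Ioo a b, c' s ∈ M.U ∧ HasDerivAt c' ((X : CN M.N → CN M.N) (c' s)) s) {s : ℝ}
    (hs : s ∈ Ioo a b) (h : c s = c' s) : EqOn c c' (Ioo a b) := by
  have key : ∀ t ∈ Ioo a b, c t = c' t → c =ᶠ[𝓝 t] c' := by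
    intro t ht e
    obtain ⟨ch, u, hu, hcu⟩ := M.chart (c t) (hc t ht).1
    have hI : ∀ᶠ r in 𝓝 t, r ∈ Ioo a b := isOpen_Ioo.mem_nhds ht
    have e1 := M.cmpl_ev ch hu (hc t ht).2.continuousAt (hI.mono fun r hr => (hc r hr).1) hcu
    have e2 := M.cmpl_ev ch hu (hc' t ht).2.continuousAt (hI.mono fun r hr => (hc' r hr).1)
      (hcu.trans e)
    obtain ⟨a', b', ht', hsub⟩ := mem_nhds_iff_exists_Ioo_subset.1 (hI.and (e1.and e2))
    have h3 := curve_unique ch.s_open (M.cmpl_field X ch) (c := fun r => ch.l (c r))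
      (c' := fun r => ch.l (c' r)) (a := a') (b := b')
      (fun r hr => ⟨(hsub hr).2.1.1, M.cmpl_curve X ch (hc r (hsub hr).1).2 (hsub hr).2.1.2⟩)
      (fun r hr => ⟨(hsub hr).2.2.1, M.cmpl_curve X ch (hc' r (hsub hr).1).2 (hsub hr).2.2.2⟩)
      ht' (by simp only [e])
    filter_upwards [isOpen_Ioo.mem_nhds ht'] with r hr
    have h4 : ch.l (c r) = ch.l (c' r) := h3 hr
    rw [← (hsub hr).2.1.2, h4, (hsub hr).2.2.2]
  have hsub : Ioo a b ⊆ {t | c =ᶠ[𝓝 t] c'} := by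
    refine isPreconnected_Ioo.subset_of_closure_inter_subset isOpen_setOfPred_eventually_nhds
      ⟨s, hs, key s hs h⟩ ?_
    rintro t ⟨h1, h2⟩
    refine key t h2 (tendsto_nhds_unique_of_frequently_eq (hc t h2).2.continuousAt
      (hc' t h2).2.continuousAt ?_)
    exact (mem_closure_iff_frequently.1 h1).mono fun r hr => hr.self_of_nhds
  exact fun t ht => (hsub ht).self_of_nhds

theorem local_flow_U (X : M.VF) {a : CN M.N} (ha : a ∈ M.U) :
    ∃ ε > 0, ∃ W, ROpen M.U W ∧ a ∈ W ∧ ∃ Φ : ℝ → CN M.N → CN M.N,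
      (∀ t ∈ Ioo (-ε) ε, Hol W (Φ t)) ∧ ∀ y ∈ W, Φ 0 y = y ∧ ∀ t ∈ Ioo (-ε) ε,
        Φ t y ∈ M.U ∧ HasDerivAt (fun s => Φ s y) ((X : CN M.N → CN M.N) (Φ t y)) t := by
  obtain ⟨ch, u, hu, hcu⟩ := M.chart a ha
  obtain ⟨ε, hε, Φ, hΦ, hm, h0⟩ := exists_local_flow ch.s_open (M.cmpl_field X ch) hu
  have hsub : ball u ε ⊆ ch.s := fun x hx => by
    rw [← (h0 x hx).1]
    exact hm ⟨mem_ball_self hε, hx⟩
  have hb : ∀ t ∈ Ioo (-ε) ε, (t : ℂ) ∈ ball (0 : ℂ) ε := fun t ht => by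
    rw [mem_ball_zero_iff, Complex.norm_real, Real.norm_eq_abs]
    exact abs_lt.2 ht
  refine ⟨ε, hε, ch.c '' ball u ε, (ch.restrict (ball u ε) isOpen_ball hsub).ropen,
    ⟨u, mem_ball_self hε, hcu⟩, fun t y => ch.c (Φ (t, ch.l y)), fun t ht => ?_, ?_⟩
  · refine ch.hol_of isOpen_ball hsub ?_
    have h1 : DifferentiableOn ℂ (fun w => Φ ((t : ℂ), w)) (ball u ε) :=
      hΦ.comp ((differentiableOn_const _).prodMk differentiableOn_id) fun w hw => ⟨hb t ht, hw⟩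
    have h2 : DifferentiableOn ℂ (fun w => ch.c (Φ ((t : ℂ), w))) (ball u ε) :=
      ch.c_diff.comp h1 fun w hw => hm ⟨hb t ht, hw⟩
    refine h2.congr fun w hw => ?_
    simp only [ch.left w (hsub hw)]
  · rintro y ⟨w, hw, rfl⟩
    simp only [ch.left w (hsub hw)]
    refine ⟨by rw [Complex.ofReal_zero, (h0 w hw).1], fun t ht => ?_⟩
    have hmem : Φ ((t : ℂ), w) ∈ ch.s := hm ⟨hb t ht, hw⟩
    refine ⟨ch.maps hmem, ?_⟩
    have h1 := (ch.differentiableAt hmem).hasFDerivAt.comp_hasDerivAt (t : ℂ)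
      ((h0 w hw).2 t (hb t ht))
    rw [ch.fderiv_c_l hmem (X.2.2.1 _ (ch.maps hmem))] at h1
    have h2 := HasDerivAt.scomp (𝕜 := ℝ) t h1 (Complex.ofRealCLM.hasDerivAt (x := t))
    rw [Complex.ofRealCLM_apply, Complex.ofReal_one, one_smul] at h2
    exact h2

theorem flow_of_complete (X : M.VF) (h : ∀ x ∈ M.U, ∃ c : ℝ → CN M.N, c 0 = x ∧
    ∀ t, c t ∈ M.U ∧ HasDerivAt c ((X : CN M.N → CN M.N) (c t)) t) :
    ∃ θ, M.IsFlow (X : CN M.N → CN M.N) θ := by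
  choose! c hc0 hc using h
  have huniq : ∀ y ∈ M.U, ∀ (γ : ℝ → CN M.N) (ε : ℝ), 0 < ε →
      (∀ s ∈ Ioo (-ε) ε, γ s ∈ M.U ∧ HasDerivAt γ ((X : CN M.N → CN M.N) (γ s)) s) →
      γ 0 = y → ∀ s ∈ Ioo (-ε) ε, γ s = c y s := by
    intro y hy γ ε hε hγ h0 s hs
    exact M.curve_unique_U X hγ (fun r _ => hc y hy r) (s := 0) ⟨by linarith, hε⟩
      (h0.trans (hc0 y hy).symm) hs
  have hadd : ∀ x ∈ M.U, ∀ s t, c x (s + t) = c (c x t) s := by
    intro x hx s t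
    refine huniq (c x t) (hc x hx t).1 (fun r => c x (r + t)) (|s| + 1) (by positivity)
      (fun r _ => ⟨(hc x hx _).1, (hc x hx (r + t)).2.comp_add_const r t⟩) (by simp) s ?_
    exact abs_lt.1 (by linarith)
  have hol : ∀ t, Hol M.U (fun y => c y t) := by
    intro t
    refine Hol.of_local fun x hx => ?_
    have hloc : IsLocallyConstant fun t => ∃ R ∈ 𝓝[M.U] x, Hol R (fun y => c y t) := by
      refine (IsLocallyConstant.iff_eventually_eq _).2 fun t0 => ?_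
      obtain ⟨ε, hε, W, hW, haW, Φ, hΦ, hΦ'⟩ := M.local_flow_U X (hc x hx t0).1
      have step : ∀ s t, c x t ∈ W → s - t ∈ Ioo (-ε) ε →
          (∃ R ∈ 𝓝[M.U] x, Hol R (fun y => c y t)) → ∃ R ∈ 𝓝[M.U] x, Hol R (fun y => c y s) := by
        rintro s t htW hst ⟨R, hR, hRh⟩
        have h1 : Tendsto (fun y => c y t) (𝓝[M.U] x) (𝓝[M.U] (c x t)) := by
          refine tendsto_nhdsWithin_iff.2 ⟨?_, eventually_nhdsWithin_of_forall fun y hy =>
            (hc y hy t).1⟩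
          exact (hRh.continuousOn x (mem_of_mem_nhdsWithin hx hR)).mono_of_mem_nhdsWithin hR
        refine ⟨R ∩ M.U ∩ (fun y => c y t) ⁻¹' W,
          inter_mem (inter_mem hR self_mem_nhdsWithin) (h1 (hW.2 _ htW)), ?_⟩
        refine ((hΦ _ hst).comp (hRh.mono fun y hy => hy.1.1) fun y hy => hy.2).congr ?_
        rintro y ⟨⟨-, hyU⟩, hyW⟩
        have e := huniq (c y t) (hc y hyU t).1 (fun r => Φ r (c y t)) ε hε (hΦ' _ hyW).2
          (hΦ' _ hyW).1 _ hst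
        show c y s = Φ (s - t) (c y t)
        rw [e, ← hadd y hyU, sub_add_cancel]
      have h1 : Tendsto (c x) (𝓝 t0) (𝓝[M.U] (c x t0)) :=
        tendsto_nhdsWithin_iff.2 ⟨(hc x hx t0).2.continuousAt,
          Eventually.of_forall fun r => (hc x hx r).1⟩
      filter_upwards [h1 (hW.2 _ haW), ball_mem_nhds t0 hε] with s hs1 hs2
      rw [mem_ball, Real.dist_eq, abs_lt] at hs2
      exact propext ⟨step t0 s hs1 ⟨by linarith, by linarith⟩, step s t0 haW hs2⟩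
    rw [hloc.apply_eq_of_preconnectedSpace t 0]
    exact ⟨M.U, self_mem_nhdsWithin, (Hol.id M.U).congr fun y hy => hc0 y hy⟩
  have hex : ∀ t, ∃ g : M.Aut, ∀ x ∈ M.U, M.ap g x = c x t := by
    intro t
    obtain ⟨g, hg, -⟩ := M.exists_aut (hol t) (hol (-t)) (fun y hy => (hc y hy _).1)
      (fun y hy => (hc y hy _).1)
      (fun y hy => by rw [← hadd y hy, neg_add_cancel, hc0 y hy])
      (fun y hy => by rw [← hadd y hy, add_neg_cancel, hc0 y hy])
    exact ⟨g, hg⟩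
  choose θ hθ using hex
  refine ⟨θ, M.aut_ext fun x hx => ?_, fun s t => M.aut_ext fun x hx => ?_, fun x hx t => ?_⟩
  · rw [hθ 0 x hx, hc0 x hx, M.ap_one hx]
  · rw [hθ _ x hx, M.ap_mul _ _ hx, hθ t x hx, hθ s _ (hc x hx t).1, hadd x hx]
  · simp only [hθ _ x hx]
    exact (hc x hx t).2

end Crest.Agent.R264.TM
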