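import Crest.Agent.R264.P1.Crit

/-! Row 264, P1: EXT, flows extend across hypersurfaces.

`compact_bound`: `exists_compact_bound` (SCV2b) in a chart (`h ∘ c` is not `0` near `u` by
`IsSub.frequently_ne`).
`ext_maps`: `Θ t` = `riemann_ext` of `θ t` (bounded since `U` is); `Θ t = θ t` on `R` by continuity and
`subset_closure_ne`; values in `closure U`.  `θ` is jointly continuous on `ℝ × R` (`montel_tendsto` on
`R`), so `θ s → θ t` uniformly on the compact `C` of `compact_bound`, and `s ↦ Θ s y` is continuous.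
For `y ∈ U` with `h y = 0`: chart `y = c u`, direction `v`, radius `r` with `h (c (u + ζ v)) ≠ 0` for
`0 < |ζ| ≤ r`; discs `f s ζ = Θ s (c (u + (r/4 + ζ r/2) v))`, `f s 0 ∈ K = θ [-T,T] z` compact,
`f s (-1/2) = Θ s y`.  By `M.taut`, `{s ∈ [-T,T] | Θ s y ∈ U} = {s ∈ [-T,T] | Θ s y ∈ K'}` is closed; it is
relatively open by `IsSub.eventually_mem_of_closure`; it contains `0` (`Θ 0 = id` by `eqOn_of_ropen`).
`ext_flow'`: group law by `eqOn_of_ropen`; `exists_aut`; the slopes `τ⁻¹ • (Θ τ - id)` are `LocBdd` on `U`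
(`compact_bound`, mean value inequality on the compact set `θ [-1,1] C ⊆ R`); along
`Ultrafilter.of (𝓝[>] 0)` they have a pointwise limit `Y`, `Y = X` on `R`; `M.montel` and `crit`. -/

set_option autoImplicit false
open Set Filter Topology Metric Complex

noncomputable section
namespace Crest.Agent.R264.TM
variable (M : TM)

theorem ext_not_zero {h : CN M.N → ℂ} (hh : Hol M.U h) (hne : ∃ x ∈ M.U, h x ≠ 0)
    (ch : Chart M.n M.U) {u : CN M.n} (hu : u ∈ ch.s) : ¬ (fun w => h (ch.c w)) =ᶠ[𝓝 u] 0 :=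
  fun e => M.isSub.frequently_ne M.conn.isPreconnected hh hne (ch.maps hu)
    (((ch.ev_iff hu (p := fun y => h y = 0)).2 e).mono fun _ hy => not_not.2 hy)

theorem compact_bound {F : Type*} [NormedAddCommGroup F] [NormedSpace ℂ F] [CompleteSpace F]
    {h : CN M.N → ℂ} (hh : Hol M.U h) (hne : ∃ x ∈ M.U, h x ≠ 0) {x : CN M.N} (hx : x ∈ M.U) :
    ∃ W ∈ 𝓝[M.U] x, W ⊆ M.U ∧ ∃ C, IsCompact C ∧ C ⊆ M.U ∩ {y | h y ≠ 0} ∧
      ∀ f : CN M.N → F, Hol M.U f → ∀ B : ℝ, (∀ z ∈ C, ‖f z‖ ≤ B) → ∀ y ∈ W, ‖f y‖ ≤ B := by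
  obtain ⟨ch, u, hu, rfl⟩ := M.chart x hx
  obtain ⟨W, hW, hWs, C, hC, hCs, hb⟩ := exists_compact_bound (F := F) ch.s_open (ch.hol_comp hh) hu
    (M.ext_not_zero hh hne ch hu)
  refine ⟨ch.c '' W, ch.image_mem_nhds hu hW, ?_, ch.c '' C,
    hC.image_of_continuousOn (ch.c_diff.continuousOn.mono fun w hw => (hCs hw).1), ?_, ?_⟩
  · rintro _ ⟨w, hw, rfl⟩
    exact ch.maps (hWs hw)
  · rintro _ ⟨w, hw, rfl⟩
    exact ⟨ch.maps (hCs hw).1, (hCs hw).2⟩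
  · rintro f hf B hB _ ⟨w, hw, rfl⟩
    exact hb (fun w => f (ch.c w)) (ch.hol_comp hf) B (fun z hz => hB _ ⟨z, hz, rfl⟩) w hw

/-- A punctured disc through `y` that misses the zero set of `h`. -/
theorem exists_disc {h : CN M.N → ℂ} (hh : Hol M.U h) (hne : ∃ x ∈ M.U, h x ≠ 0) {y : CN M.N}
    (hy : y ∈ M.U) : ∃ φ : ℂ → CN M.N, DifferentiableOn ℂ φ (ball 0 1) ∧ MapsTo φ (ball 0 1) M.U ∧
      φ (1 / 2) = y ∧ ∀ ζ ∈ ball (0 : ℂ) 1, ζ ≠ 1 / 2 → h (φ ζ) ≠ 0 := by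
  obtain ⟨ch, u, hu, rfl⟩ := M.chart y hy
  obtain ⟨ε, hε, hsub⟩ := Metric.isOpen_iff.1 ch.s_open u hu
  obtain ⟨w, hw0, hw⟩ := ((not_eventually.1 (M.ext_not_zero hh hne ch hu)).and_eventually
    (ball_mem_nhds u hε)).exists
  have hlin : IsLinearMap ℝ fun ζ : ℂ => ζ • (w - u) :=
    ⟨fun a b => add_smul a b _, fun r a => smul_assoc r a _⟩
  have hcont : Continuous fun ζ : ℂ => ζ • (w - u) := by fun_prop
  have hD : IsOpen ((fun ζ : ℂ => ζ • (w - u)) ⁻¹' ball 0 ε) := isOpen_ball.preimage hcont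
  have hDs : ∀ ζ ∈ (fun ζ : ℂ => ζ • (w - u)) ⁻¹' ball 0 ε, u + ζ • (w - u) ∈ ch.s := by
    intro ζ hζ
    refine hsub ?_
    rw [mem_ball, dist_eq_norm, add_sub_cancel_left]
    exact mem_ball_zero_iff.1 hζ
  have hd : Differentiable ℂ fun ζ : ℂ => u + ζ • (w - u) := by fun_prop
  have h0 : (0 : ℂ) ∈ (fun ζ : ℂ => ζ • (w - u)) ⁻¹' ball 0 ε := by simpa using hε
  have h1 : (1 : ℂ) ∈ (fun ζ : ℂ => ζ • (w - u)) ⁻¹' ball 0 ε := by
    simpa [dist_eq_norm] using hw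
  have hiso := scv2b_isolated (φ := fun ζ : ℂ => h (ch.c (u + ζ • (w - u)))) hD
    ((convex_ball (0 : CN M.n) ε).is_linear_preimage hlin).isPreconnected
    ((ch.hol_comp hh).comp hd.differentiableOn hDs) h1 (by simpa using hw0) h0
  obtain ⟨r, hr, hrb⟩ := Metric.eventually_nhds_iff_ball.1
    ((eventually_nhdsWithin_iff.1 hiso).and (hD.mem_nhds h0))
  have hmem : ∀ ζ ∈ ball (0 : ℂ) 1, (ζ - 1 / 2) * ((r / 2 : ℝ) : ℂ) ∈ ball (0 : ℂ) r := by
    intro ζ hζ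
    rw [mem_ball_zero_iff] at hζ ⊢
    have h2 : ‖ζ - 1 / 2‖ ≤ ‖ζ‖ + 1 / 2 := by
      refine (norm_sub_le _ _).trans (le_of_eq ?_)
      simp
    rw [norm_mul, Complex.norm_real, Real.norm_eq_abs, abs_of_pos (by positivity)]
    nlinarith
  have hd2 : Differentiable ℂ fun ζ : ℂ => u + ((ζ - 1 / 2) * ((r / 2 : ℝ) : ℂ)) • (w - u) := by
    fun_prop
  refine ⟨fun ζ => ch.c (u + ((ζ - 1 / 2) * ((r / 2 : ℝ) : ℂ)) • (w - u)),
    ch.c_diff.comp hd2.differentiableOn fun ζ hζ => hDs _ (hrb _ (hmem ζ hζ)).2,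
    fun ζ hζ => ch.maps (hDs _ (hrb _ (hmem ζ hζ)).2), by simp, fun ζ hζ hne => ?_⟩
  refine (hrb _ (hmem ζ hζ)).1 (mul_ne_zero (sub_ne_zero.2 hne) ?_)
  exact Complex.ofReal_ne_zero.2 (by positivity)

theorem ext_ulim {ι : Type*} (l : Ultrafilter ι) {f : ι → CN M.N → CN M.N}
    (hf : M.LocBdd (l : Filter ι) f M.U) :
    ∃ φ : CN M.N → CN M.N, Hol M.U φ ∧ ∀ x ∈ M.U, Tendsto (fun j => f j x) l (𝓝 (φ x)) := by
  have h1 : ∀ x ∈ M.U, ∃ y, Tendsto (fun j => f j x) l (𝓝 y) := by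
    intro x hx
    obtain ⟨W, hW, C, hC⟩ := hf x hx
    obtain ⟨y, -, hy⟩ := (isCompact_closedBall (0 : CN M.N) C).ultrafilter_le_nhds'
      (l.map fun j => f j x) (by
        refine Filter.mem_map.2 (hC.mono fun j hj => ?_)
        exact mem_closedBall_zero_iff.2 (hj.2 x (mem_of_mem_nhdsWithin hx hW)))
    exact ⟨y, hy⟩
  choose! φ hφ using h1
  exact ⟨φ, (M.montel (ROpen.refl _) hf hφ).1, hφ⟩

theorem ext_vitali {ι : Type*} {l : Filter ι} {f : ι → CN M.N → CN M.N} {g : CN M.N → CN M.N}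
    (hf : M.LocBdd l f M.U) (hg : Hol M.U g) {R : Set (CN M.N)} (hR : ROpen M.U R)
    (hne : R.Nonempty) (h : ∀ x ∈ R, Tendsto (fun j => f j x) l (𝓝 (g x))) {x : CN M.N}
    (hx : x ∈ M.U) : Tendsto (fun j => f j x) l (𝓝 (g x)) := by
  refine (tendsto_iff_ultrafilter _ _ _).2 fun u hu => ?_
  obtain ⟨φ, hφ, hl⟩ := M.ext_ulim u (f := f) fun y hy => by
    obtain ⟨W, hW, C, hC⟩ := hf y hy
    exact ⟨W, hW, C, hu hC⟩
  have e : EqOn φ g M.U := M.eqOn_of_ropen hR hne hφ hg fun y hy =>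
    tendsto_nhds_unique (hl y (hR.1 hy)) ((h y hy).mono_left hu)
  rw [← e hx]
  exact hl x hx

theorem ext_maps {R : Set (CN M.N)} (hR : ROpen M.U R) {h : CN M.N → ℂ} (hh : Hol M.U h)
    (hne : ∃ x ∈ M.U, h x ≠ 0) (hRh : ∀ x ∈ M.U, h x ≠ 0 → x ∈ R)
    {θ : ℝ → CN M.N → CN M.N} (hol : ∀ t, Hol R (θ t)) (maps : ∀ t, MapsTo (θ t) R M.U)
    (zero : ∀ x ∈ R, θ 0 x = x) (cont : ∀ x ∈ R, Continuous fun t => θ t x) :
    ∃ Θ : ℝ → CN M.N → CN M.N, (∀ t, Hol M.U (Θ t)) ∧ (∀ t, MapsTo (Θ t) M.U M.U) ∧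
      ∀ t, ∀ x ∈ R, Θ t x = θ t x := by
  obtain ⟨B, hB⟩ := M.bdd.closure.exists_norm_le
  have hRne : R.Nonempty := by
    obtain ⟨x, hx, hx0⟩ := hne
    exact ⟨x, hRh x hx hx0⟩
  have hex : ∀ t, ∃ g : CN M.N → CN M.N, Hol M.U g ∧ ∀ y ∈ M.U, h y ≠ 0 → g y = θ t y := by
    intro t
    refine M.riemann_ext hh hne ((hol t).mono fun y hy => hRh y hy.1 hy.2) fun x _ => ?_
    exact ⟨univ, univ_mem, B, fun y hy hy0 => hB _ (subset_closure (maps t (hRh y hy.2 hy0)))⟩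
  choose Θ hΘ hΘe using hex
  have hfr : ∀ x ∈ M.U, ∃ᶠ y in 𝓝[M.U] x, h y ≠ 0 ∧ y ∈ M.U := fun x hx =>
    (M.isSub.frequently_ne M.conn.isPreconnected hh hne hx).and_eventually self_mem_nhdsWithin
  have heq : ∀ t, ∀ x ∈ R, Θ t x = θ t x := by
    intro t x hx
    have h1 : Tendsto (θ t) (𝓝[M.U] x) (𝓝 (θ t x)) := by
      rw [← hR.nhdsWithin_eq hx]
      exact (hol t).continuousOn x hx
    exact tendsto_nhds_unique_of_frequently_eq ((hΘ t).continuousOn x (hR.1 hx)) h1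
      ((hfr x (hR.1 hx)).mono fun y hy => hΘe t y hy.2 hy.1)
  have hcl : ∀ t, ∀ x ∈ M.U, Θ t x ∈ closure M.U := by
    intro t x hx
    refine mem_closure_of_frequently_of_tendsto ((hfr x hx).mono fun y hy => ?_)
      ((hΘ t).continuousOn x hx)
    rw [hΘe t y hy.2 hy.1]
    exact maps t (hRh y hy.2 hy.1)
  have hcont : ∀ y ∈ M.U, Continuous fun t => Θ t y := by
    intro y hy
    refine continuous_iff_continuousAt.2 fun t => ?_
    refine M.ext_vitali (l := 𝓝 t) (f := Θ) (fun x _ => ⟨M.U, self_mem_nhdsWithin, B,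
      Eventually.of_forall fun s => ⟨hΘ s, fun z hz => hB _ (hcl s z hz)⟩⟩) (hΘ t) hR hRne
      (fun x hx => ?_) hy
    simp only [heq _ x hx]
    exact (cont x hx).continuousAt
  have h0 : EqOn (Θ 0) (fun x => x) M.U := M.eqOn_of_ropen hR hRne (hΘ 0) (Hol.id _) fun x hx =>
    (heq 0 x hx).trans (zero x hx)
  refine ⟨Θ, hΘ, fun t y hy => ?_, heq⟩
  obtain ⟨φ, hφ, hφm, hφy, hφh⟩ := M.exists_disc hh hne hy
  have hφR : ∀ ζ ∈ ball (0 : ℂ) 1, ζ ≠ 1 / 2 → φ ζ ∈ R := fun ζ hζ hζ' =>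
    hRh _ (hφm hζ) (hφh ζ hζ hζ')
  have hz : φ 0 ∈ R := hφR 0 (mem_ball_self one_pos) (by norm_num)
  have hclopen : IsClopen {s : ℝ | Θ s y ∈ M.U} := by
    constructor
    · refine isClosed_of_closure_subset fun s hs => ?_
      obtain ⟨K', hK', hK'U, hK⟩ := M.taut ((fun r => θ r (φ 0)) '' closedBall s 1)
        ((isCompact_closedBall s 1).image (cont _ hz)) (by
          rintro _ ⟨r, -, rfl⟩
          exact maps r hz) (1 / 2) (by norm_num)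
      have h1 : ∃ᶠ r in 𝓝 s, Θ r y ∈ K' := by
        refine ((mem_closure_iff_frequently.1 hs).and_eventually
          (closedBall_mem_nhds s one_pos)).mono fun r hr => ?_
        have h2 := hK (fun ζ => Θ r (φ ζ)) ((hΘ r).comp_differentiableOn hφ hφm) (fun ζ hζ => by
          by_cases e : ζ = 1 / 2
          · simp only [e, hφy]
            exact hr.1
          · simp only [heq r _ (hφR ζ hζ e)]
            exact maps r (hφR ζ hζ e)) ⟨r, hr.2, (heq r _ hz).symm⟩ (x := 1 / 2) (by simp)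
        simpa only [hφy] using h2
      exact hK'U (hK'.isClosed.mem_of_frequently_of_tendsto h1 (hcont y hy).continuousAt)
    · refine isOpen_iff_mem_nhds.2 fun s hs => ?_
      filter_upwards [(hcont y hy).continuousAt.tendsto.eventually
        (M.isSub.eventually_mem_of_closure hs)] with r hr
      exact hr (hcl r y hy)
  have huniv := hclopen.eq_univ ⟨0, by
    show Θ 0 y ∈ M.U
    rw [h0 hy]
    exact hy⟩
  exact (huniv ▸ mem_univ t : t ∈ {s : ℝ | Θ s y ∈ M.U})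

theorem ext_flow' {R : Set (CN M.N)} (hR : ROpen M.U R) {h : CN M.N → ℂ} (hh : Hol M.U h)
    (hne : ∃ x ∈ M.U, h x ≠ 0) (hRh : ∀ x ∈ M.U, h x ≠ 0 → x ∈ R) {X : CN M.N → CN M.N}
    (hX : ContinuousOn X R) {θ : ℝ → CN M.N → CN M.N} (hol : ∀ t, Hol R (θ t))
    (maps : ∀ t, MapsTo (θ t) R R) (zero : ∀ x ∈ R, θ 0 x = x)
    (add : ∀ s t, ∀ x ∈ R, θ (s + t) x = θ s (θ t x))
    (deriv : ∀ x ∈ R, ∀ t, HasDerivAt (fun s => θ s x) (X (θ t x)) t) :
    ∃ (Y : CN M.N → CN M.N) (ϑ : ℝ → M.Aut), Hol M.U Y ∧ M.IsFlow Y ϑ ∧ ∀ x ∈ R, Y x = X x := by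
  have cont : ∀ x ∈ R, Continuous fun t => θ t x := fun x hx =>
    continuous_iff_continuousAt.2 fun t => (deriv x hx t).continuousAt
  obtain ⟨Θ, hΘ, hΘm, heq⟩ := M.ext_maps hR hh hne hRh hol (fun t x hx => hR.1 (maps t hx)) zero cont
  obtain ⟨B, hB⟩ := M.bdd.exists_norm_le
  have hRne : R.Nonempty := by
    obtain ⟨x, hx, hx0⟩ := hne
    exact ⟨x, hRh x hx hx0⟩
  have h0 : EqOn (Θ 0) (fun x => x) M.U := M.eqOn_of_ropen hR hRne (hΘ 0) (Hol.id _) fun x hx =>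
    (heq 0 x hx).trans (zero x hx)
  have hadd : ∀ s t, EqOn (Θ (s + t)) (fun x => Θ s (Θ t x)) M.U := fun s t =>
    M.eqOn_of_ropen hR hRne (hΘ _) ((hΘ s).comp (hΘ t) (hΘm t)) fun x hx => by
      show Θ (s + t) x = Θ s (Θ t x)
      rw [heq _ x hx, heq t x hx, heq s _ (maps t hx), add s t x hx]
  have hex : ∀ t, ∃ g : M.Aut, ∀ x ∈ M.U, M.ap g x = Θ t x := by
    intro t
    obtain ⟨g, hg, -⟩ := M.exists_aut (hΘ t) (hΘ (-t)) (hΘm t) (hΘm (-t))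
      (fun y hy => by
        have := hadd (-t) t hy
        rw [neg_add_cancel, h0 hy] at this
        exact this.symm)
      (fun y hy => by
        have := hadd t (-t) hy
        rw [add_neg_cancel, h0 hy] at this
        exact this.symm)
    exact ⟨g, hg⟩
  choose g hg using hex
  have hjc : ContinuousOn (fun p : ℝ × CN M.N => θ p.1 p.2) (univ ×ˢ R) := by
    rintro ⟨t, x⟩ hp
    haveI : (𝓝[univ ×ˢ R] (t, x)).NeBot := nhdsWithin_neBot_of_mem hp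
    refine (M.montel_tendsto (l := 𝓝[univ ×ˢ R] (t, x)) (f := fun p => θ p.1) (g := θ t)
      (a := fun p => p.2) hR (fun y hy => ⟨R, hR.2 y hy, B, Eventually.of_forall fun p =>
        ⟨hol _, fun z hz => hB _ (hR.1 (maps _ hz))⟩⟩) (fun y hy => ?_) hp.2 ?_).1
    · exact ((cont y hy).tendsto t).comp
        ((continuous_fst.tendsto (t, x)).mono_left nhdsWithin_le_nhds)
    · exact tendsto_nhdsWithin_iff.2 ⟨(continuous_snd.tendsto (t, x)).mono_left nhdsWithin_le_nhds,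
        eventually_nhdsWithin_of_forall fun p hp => hR.1 hp.2⟩
  have hbd : M.LocBdd (𝓝[>] (0 : ℝ)) (fun τ y => τ⁻¹ • (M.ap (g τ) y - y)) M.U := by
    intro x hx
    obtain ⟨W, hW, hWU, C, hC, hCU, hb⟩ := M.compact_bound (F := CN M.N) hh hne hx
    have hCR : C ⊆ R := fun z hz => hRh z (hCU hz).1 (hCU hz).2
    have hC2 : IsCompact ((fun p : ℝ × CN M.N => θ p.1 p.2) '' (Icc (0 : ℝ) 1 ×ˢ C)) :=
      (isCompact_Icc.prod hC).image_of_continuousOn (hjc.mono (prod_mono (subset_univ _) hCR))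
    obtain ⟨A, hA⟩ := hC2.exists_bound_of_continuousOn (hX.mono (by
      rintro _ ⟨p, hp, rfl⟩
      exact maps _ (hCR hp.2)))
    refine ⟨W, hW, A, ?_⟩
    filter_upwards [Ioc_mem_nhdsGT (zero_lt_one' ℝ)] with τ hτ
    have hH : Hol M.U fun y => τ⁻¹ • (M.ap (g τ) y - y) :=
      ((M.hol_ap (g τ)).sub (Hol.id _)).fun_real_smul _
    refine ⟨hH.mono hWU, hb _ hH A fun z hz => ?_⟩
    have h1 := norm_image_sub_le_of_norm_deriv_le_segment' (f := fun s => θ s z)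
      (f' := fun s => X (θ s z)) (a := 0) (b := 1) (C := A)
      (fun s _ => (deriv z (hCR hz) s).hasDerivWithinAt)
      (fun s hs => hA _ ⟨(s, z), ⟨Ico_subset_Icc_self hs, hz⟩, rfl⟩) τ (Ioc_subset_Icc_self hτ)
    rw [zero z (hCR hz), sub_zero] at h1
    rw [hg τ z (hCU hz).1, heq τ z (hCR hz), norm_smul, norm_inv, Real.norm_eq_abs,
      abs_of_pos hτ.1, inv_mul_le_iff₀ hτ.1, mul_comm]
    exact h1
  have hu : (Ultrafilter.of (𝓝[>] (0 : ℝ)) : Filter ℝ) ≤ 𝓝[>] 0 := Ultrafilter.of_le _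
  have hbd' : M.LocBdd (Ultrafilter.of (𝓝[>] (0 : ℝ)) : Filter ℝ)
      (fun τ y => τ⁻¹ • (M.ap (g τ) y - y)) M.U := fun y hy => by
    obtain ⟨W, hW, C, hC⟩ := hbd y hy
    exact ⟨W, hW, C, hu hC⟩
  obtain ⟨Y, hY, hYl⟩ := M.ext_ulim _ hbd'
  obtain ⟨ϑ, hϑ⟩ := M.crit (τ := fun t : ℝ => t) (h := g) (X := Y) hu hbd' hYl
  refine ⟨Y, ϑ, hY, hϑ, fun x hx => tendsto_nhds_unique (hYl x (hR.1 hx)) ?_⟩
  have h1 := (deriv x hx 0).tendsto_slope_zero_right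
  simp only [zero_add, zero x hx] at h1
  simp only [hg _ x (hR.1 hx), heq _ x hx]
  exact h1.mono_left hu

end Crest.Agent.R264.TM
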