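import Crest.Agent.R264.GClos

/-! Row 264, P1: lemma (E), no complex lines.

`f z = θ z.re (η z.im y)`.  `W = Y - I • X ∈ VF` commutes with `X` and `Y`, so it is fixed by `Ad (θ s)` and
`Ad (η t)` (`Ad_eq_of_lie`), and vanishes at `y`, hence at all `f z` (`Ad_apply`).
`f (z + ζ) = θ ζ.re (η' ζ.im (f z))` where `η' τ = θ s * η τ * (θ s)⁻¹` (`s = z.re`) is a flow of
`Ad (θ s) Y = Y` (`flow_Ad`).  `two_flow` gives the real derivative `ζ ↦ ζ.re • X p + ζ.im • Y p = ζ • X p`,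
`p = f z`, so `HasDerivAt f (X p) z` over `ℂ` (`hasFDerivAt_of_restrictScalars`).  Liouville
(`Differentiable.apply_eq_apply_of_bounded`, `U` is bounded) makes `f` constant, so `X y = 0`. -/

set_option autoImplicit false
open Set Filter Topology Metric Complex

noncomputable section
namespace Crest.Agent.R264.TM
variable (M : TM)

theorem two_flow {X Y : M.VF} {θ η : ℝ → M.Aut} (hθ : M.IsFlow X θ) (hη : M.IsFlow Y η)
    {p : CN M.N} (hp : p ∈ M.U) :
    HasFDerivAt (fun ζ : ℂ => M.ap (θ ζ.re) (M.ap (η ζ.im) p))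
      (Complex.reCLM.smulRight ((X : CN M.N → CN M.N) p) +
        Complex.imCLM.smulRight ((Y : CN M.N → CN M.N) p)) 0 := by
  have h0 : M.ap (η (0 : ℂ).im) p = p := by
    rw [Complex.zero_im, hη.zero, M.ap_one hp]
  have h1 : HasFDerivAt (fun ζ : ℂ => M.ap (η ζ.im) p)
      (Complex.imCLM.smulRight ((Y : CN M.N → CN M.N) p)) 0 := by
    have h2 := (hη.deriv p hp (0 : ℂ).im).hasFDerivAt.comp (0 : ℂ) Complex.imCLM.hasFDerivAt
    rw [h0] at h2
    refine h2.congr_fderiv ?_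
    ext1 ζ
    simp
  have h3 : HasFDerivAt (fun ζ : ℂ => (ζ.re, M.ap (η ζ.im) p))
      (Complex.reCLM.prod (Complex.imCLM.smulRight ((Y : CN M.N → CN M.N) p))) 0 :=
    Complex.reCLM.hasFDerivAt.prodMk h1
  have h4 := hθ.hasFDerivWithinAt X.2.1.continuousOn hp 0
  have h5 : ((0 : ℝ), p) = ((0 : ℂ).re, M.ap (η (0 : ℂ).im) p) := by
    rw [h0, Complex.zero_re]
  rw [h5] at h4
  have h6 := h4.comp_hasFDerivAt (0 : ℂ) h3
    (Eventually.of_forall fun ζ => mk_mem_prod (mem_univ _) (M.ap_mem _ hp))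
  refine h6.congr_fderiv ?_
  ext1 ζ
  have h7 : ζ.im • (Y : CN M.N → CN M.N) p ∈ M.T p :=
    Submodule.smul_mem _ (ζ.im : ℂ) (Y.2.2.1 p hp)
  simp only [hθ.zero, M.ap_one hp, ContinuousLinearMap.comp_apply, ContinuousLinearMap.add_apply,
    ContinuousLinearMap.smulRight_apply, ContinuousLinearMap.prod_apply,
    ContinuousLinearMap.coe_fst', ContinuousLinearMap.coe_snd',
    ContinuousLinearMap.coe_restrictScalars', Complex.reCLM_apply, Complex.imCLM_apply]
  rw [M.D_ap_one hp h7]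

theorem noC_flow {X Y : M.VF} {θ η : ℝ → M.Aut} (hθ : M.IsFlow X θ) (hη : M.IsFlow Y η)
    (hXY : ⁅X, Y⁆ = 0) {y : CN M.N} (hy : y ∈ M.U)
    (h : (Y : CN M.N → CN M.N) y = I • (X : CN M.N → CN M.N) y) : (X : CN M.N → CN M.N) y = 0 := by
  set W : M.VF := Y - I • X with hW
  have hXW : ⁅X, W⁆ = 0 := by
    rw [hW, lie_sub, lie_smul, hXY, lie_self, smul_zero, sub_zero]
  have hYW : ⁅Y, W⁆ = 0 := by
    rw [hW, lie_sub, lie_smul, ← lie_skew Y X, hXY, lie_self, neg_zero, smul_zero, sub_zero]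
  have hWy : (W : CN M.N → CN M.N) y = 0 := by
    simp [hW, h]
  have hpush : ∀ (g : M.Aut), M.Ad g W = W → ∀ q ∈ M.U, (W : CN M.N → CN M.N) q = 0 →
      (W : CN M.N → CN M.N) (M.ap g q) = 0 := by
    intro g hg q hq h0
    have := M.Ad_apply g W hq
    rwa [hg, h0, map_zero] at this
  set f : ℂ → CN M.N := fun z => M.ap (θ z.re) (M.ap (η z.im) y) with hf
  have hfU : ∀ z, f z ∈ M.U := fun z => M.ap_mem _ (M.ap_mem _ hy)
  have hd : ∀ z, HasDerivAt f ((X : CN M.N → CN M.N) (f z)) z := by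
    intro z
    have h1 : (W : CN M.N → CN M.N) (f z) = 0 :=
      hpush _ (hθ.Ad_eq_of_lie hXW _) _ (M.ap_mem _ hy) (hpush _ (hη.Ad_eq_of_lie hYW _) _ hy hWy)
    have h2 : (Y : CN M.N → CN M.N) (f z) = I • (X : CN M.N → CN M.N) (f z) := by
      simpa [hW, sub_eq_zero] using h1
    have h3 := M.flow_Ad (θ z.re) hη
    rw [hθ.Ad_eq_of_lie hXY] at h3
    have h4 := M.two_flow hθ h3 (hfU z)
    have h5 : (fun ζ : ℂ => M.ap (θ ζ.re) (M.ap (θ z.re * η ζ.im * (θ z.re)⁻¹) (f z))) =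
        fun ζ => f (ζ + z) := by
      funext ζ
      simp only [hf, Complex.add_re, Complex.add_im, hθ.add, hη.add]
      rw [M.ap_mul _ _ (hfU z), M.ap_inv_ap _ (M.ap_mem _ hy), M.ap_mul _ _ (M.ap_mem _ hy),
        M.ap_mul _ _ (M.ap_mem _ hy), M.ap_mul _ _ hy]
    rw [h5] at h4
    have h6 : HasDerivAt (fun ζ => f (ζ + z)) ((X : CN M.N → CN M.N) (f z)) 0 := by
      refine hasFDerivAt_of_restrictScalars ℝ h4 ?_
      ext1 ζ
      simp only [h2, ContinuousLinearMap.add_apply, ContinuousLinearMap.smulRight_apply,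
        ContinuousLinearMap.coe_restrictScalars', Complex.reCLM_apply, Complex.imCLM_apply,
        ContinuousLinearMap.toSpanSingleton_apply]
      rw [← Complex.coe_smul, ← Complex.coe_smul, smul_smul, ← add_smul, Complex.re_add_im]
    have h7 : HasDerivAt (fun ζ => f (ζ + z)) ((X : CN M.N → CN M.N) (f z)) (z - z) := by
      rwa [sub_self]
    simpa using h7.comp_sub_const z z
  have hb : Bornology.IsBounded (range f) := M.bdd.subset (range_subset_iff.2 hfU)
  have hc : f = fun _ => f 0 := funext fun z =>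
    Differentiable.apply_eq_apply_of_bounded (fun z => (hd z).differentiableAt) hb z 0
  have h0 : f 0 = y := by
    simp only [hf, Complex.zero_re, Complex.zero_im, hθ.zero, hη.zero, M.ap_one hy]
  have h8 := hd 0
  rw [h0, hc] at h8
  exact h8.unique (hasDerivAt_const _ _)

end Crest.Agent.R264.TM
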