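import Crest.Agent.R264.Defs

/-! Row 264, P1: linear ODE lemmas on a finite-dimensional real vector space (no topology on `V`;
derivatives are tested with linear functionals).

`isSkew_of_bounded`: basis `b`, coordinates `f i`, `⟨u,v⟩ = Σ f i u * f i v`,
`β T u v = T⁻¹ ∫_0^T ⟨φ t u, φ t v⟩ dt`; `β = lim` along an ultrafilter `≤ atTop` (each `β T u v` is
bounded); `β T (A u) v + β T u (A v) = T⁻¹ (⟨φ T u, φ T v⟩ - ⟨u,v⟩) → 0` (FTC).  Positivity: the matrices of
`φ (-t)` are bounded, `v = φ (-t) (φ t v)`, so `⟨φ t v, φ t v⟩ ≥ c > 0` for all `t`.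
`mem_of_ode`: transport `V ⧸ S` to `Fin d → ℝ` by a basis; the image of `c` solves a linear ODE with
`0` initial value (`ODE_solution_unique_univ` or Gronwall). -/

set_option autoImplicit false
open Set Filter Topology Metric Complex

noncomputable section
namespace Crest.Agent.R264
variable {V : Type*} [AddCommGroup V] [Module ℝ V]

theorem IsSkew.neg {A : Module.End ℝ V} (h : IsSkew A) : IsSkew (-A) := by
  obtain ⟨β, h1, h2, h3⟩ := h
  refine ⟨β, h1, h2, fun u v => ?_⟩
  have := h3 u v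
  simp only [LinearMap.neg_apply, map_neg]
  linarith

theorem skew_lim (𝒰 : Ultrafilter ℝ) {g : ℝ → ℝ} (hb : ∃ C, ∀ t, |g t| ≤ C) :
    ∃ x, Tendsto (fun T : ℝ => T⁻¹ * ∫ t in (0 : ℝ)..T, g t) 𝒰 (𝓝 x) := by
  obtain ⟨C, hC⟩ := hb
  have hC0 : 0 ≤ C := (abs_nonneg _).trans (hC 0)
  obtain ⟨x, -, hx⟩ := (isCompact_Icc (a := -C) (b := C)).ultrafilter_le_nhds
    (𝒰.map fun T : ℝ => T⁻¹ * ∫ t in (0 : ℝ)..T, g t) (by
      rw [le_principal_iff]
      refine mem_map.2 (univ_mem' fun T => abs_le.1 ?_)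
      have h1 := intervalIntegral.norm_integral_le_of_norm_le_const (a := 0) (b := T) (f := g)
        (C := C) fun t _ => hC t
      rw [sub_zero, Real.norm_eq_abs] at h1
      rcases eq_or_ne T 0 with rfl | hT
      · simpa using hC0
      · rw [abs_mul, abs_inv, inv_mul_le_iff₀ (abs_pos.2 hT), mul_comm]
        exact h1)
  exact ⟨x, hx⟩

theorem isSkew_of_bounded [FiniteDimensional ℝ V] (A : Module.End ℝ V) (φ : ℝ → V →ₗ[ℝ] V)
    (h0 : ∀ v, φ 0 v = v) (hadd : ∀ s t v, φ (s + t) v = φ s (φ t v))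
    (hd : ∀ (f : V →ₗ[ℝ] ℝ) (v : V) (t : ℝ), HasDerivAt (fun s => f (φ s v)) (f (φ t (A v))) t)
    (hb : ∀ (f : V →ₗ[ℝ] ℝ) (v : V), ∃ C : ℝ, ∀ t, |f (φ t v)| ≤ C) : IsSkew A := by
  let b := Module.finBasis ℝ V
  let g : V → V → ℝ → ℝ := fun u v t => ∑ i, b.coord i (φ t u) * b.coord i (φ t v)
  have gd : ∀ u v t, HasDerivAt (g u v) (g (A u) v t + g u (A v) t) t := fun u v t => by
    refine (HasDerivAt.fun_sum fun i (_ : i ∈ Finset.univ) =>
      (hd (b.coord i) u t).mul (hd (b.coord i) v t)).congr_deriv ?_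
    rw [Finset.sum_add_distrib]
  have gc : ∀ u v, Continuous (g u v) := fun u v =>
    continuous_iff_continuousAt.2 fun t => (gd u v t).continuousAt
  have gi : ∀ u v T, IntervalIntegrable (g u v) MeasureTheory.volume 0 T := fun u v T =>
    (gc u v).intervalIntegrable _ _
  choose C hC using hb
  have gb : ∀ u v, ∃ C, ∀ t, |g u v t| ≤ C := fun u v =>
    ⟨∑ i, C (b.coord i) u * C (b.coord i) v, fun t => (Finset.abs_sum_le_sum_abs _ _).trans
      (Finset.sum_le_sum fun i _ => by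
        rw [abs_mul]
        exact mul_le_mul (hC _ _ _) (hC _ _ _) (abs_nonneg _) ((abs_nonneg _).trans (hC _ _ t)))⟩
  let 𝒰 : Ultrafilter ℝ := Ultrafilter.of atTop
  have h𝒰 : (𝒰 : Filter ℝ) ≤ atTop := Ultrafilter.of_le _
  choose β hβ using fun u v => skew_lim 𝒰 (gb u v)
  have gs : ∀ u v, g u v = g v u := fun u v => by
    funext t
    simp only [g, mul_comm]
  have bs : ∀ u v, β u v = β v u := fun u v => tendsto_nhds_unique (hβ u v) (gs u v ▸ hβ v u)
  have ba : ∀ u u' v, β (u + u') v = β u v + β u' v := fun u u' v => by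
    refine tendsto_nhds_unique (hβ _ v) (((hβ u v).add (hβ u' v)).congr fun T => ?_)
    rw [← mul_add, ← intervalIntegral.integral_add (gi _ _ T) (gi _ _ T)]
    simp only [g, map_add, add_mul, Finset.sum_add_distrib]
  have bm : ∀ (a : ℝ) u v, β (a • u) v = a • β u v := fun a u v => by
    refine tendsto_nhds_unique (hβ _ v) (((hβ u v).const_mul a).congr fun T => ?_)
    rw [mul_left_comm, ← intervalIntegral.integral_const_mul]
    simp only [g, map_smul, smul_eq_mul, Finset.mul_sum, mul_assoc]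
  refine ⟨LinearMap.mk₂ ℝ β ba bm (fun u v v' => by rw [bs, ba, bs v, bs v'])
    (fun a u v => by rw [bs, bm, bs v]), bs, fun v hv => ?_, fun u v => ?_⟩
  · obtain ⟨j, hj⟩ : ∃ j, b.coord j v ≠ 0 := by
      by_contra hh
      exact hv (b.forall_coord_eq_zero_iff.1 fun j => not_not.1 fun h => hh ⟨j, h⟩)
    set K : ℝ := ∑ i, C (b.coord j) (b i) ^ 2 + 1 with hK
    have hK0 : 0 < K := by positivity
    have h1 : ∀ t, b.coord j v ^ 2 / K ≤ g v v t := fun t => by
      have e : b.coord j v = ∑ i, b.coord i (φ t v) * b.coord j (φ (-t) (b i)) := by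
        conv_lhs => rw [← h0 v, ← neg_add_cancel t, hadd, ← b.sum_repr (φ t v)]
        simp only [map_sum, map_smul, smul_eq_mul, Module.Basis.coord_apply]
      have h2 := Finset.sum_mul_sq_le_sq_mul_sq Finset.univ (fun i => b.coord i (φ t v))
        fun i => b.coord j (φ (-t) (b i))
      have h3 : ∑ i, b.coord j (φ (-t) (b i)) ^ 2 ≤ K := by
        refine (Finset.sum_le_sum fun i _ => ?_).trans (le_add_of_nonneg_right zero_le_one)
        rw [← sq_abs]
        exact pow_le_pow_left₀ (abs_nonneg _) (hC _ _ _) 2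
      rw [div_le_iff₀ hK0, e]
      refine h2.trans ?_
      simp only [g, ← sq]
      exact mul_le_mul_of_nonneg_left h3 (by positivity)
    refine lt_of_lt_of_le (by positivity : 0 < b.coord j v ^ 2 / K) (ge_of_tendsto (hβ v v) ?_)
    filter_upwards [h𝒰 (eventually_gt_atTop 0)] with T hT
    have h2 := intervalIntegral.integral_mono_on hT.le intervalIntegrable_const (gi v v T)
      fun t _ => h1 t
    rw [intervalIntegral.integral_const, sub_zero, smul_eq_mul] at h2
    exact (le_inv_mul_iff₀ hT).2 h2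
  · obtain ⟨D, hD⟩ := gb u v
    have h1 : Tendsto (fun T : ℝ => T⁻¹ * (g u v T - g u v 0)) atTop (𝓝 0) :=
      tendsto_inv_atTop_zero.zero_mul_isBoundedUnder_le (isBoundedUnder_of ⟨D + D, fun T =>
        (abs_sub _ _).trans (add_le_add (hD _) (hD _))⟩)
    refine tendsto_nhds_unique ((hβ _ _).add (hβ _ _)) ((h1.mono_left h𝒰).congr fun T => ?_)
    rw [← mul_add, ← intervalIntegral.integral_add (gi _ _ T) (gi _ _ T),
      intervalIntegral.integral_eq_sub_of_hasDerivAt (fun t _ => gd u v t)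
        ((gi _ _ T).add (gi _ _ T))]

theorem mem_of_ode [FiniteDimensional ℝ V] (S : Submodule ℝ V) (A : Module.End ℝ V)
    (hA : ∀ v ∈ S, A v ∈ S) {c : ℝ → V}
    (hd : ∀ (f : V →ₗ[ℝ] ℝ) (t : ℝ), HasDerivAt (fun s => f (c s)) (f (A (c t))) t)
    (h0 : c 0 ∈ S) (t : ℝ) : c t ∈ S := by
  let e := (Module.finBasis ℝ (V ⧸ S)).equivFun
  let π := e.toLinearMap ∘ₗ S.mkQ
  let B := LinearMap.toContinuousLinearMap (e.toLinearMap ∘ₗ S.mapQ S A hA ∘ₗ e.symm.toLinearMap)
  have hB : ∀ v, B (π v) = π (A v) := fun v => by simp [B, π]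
  have h1 : ∀ t, HasDerivAt (fun s => π (c s)) (B (π (c t))) t := fun t => by
    rw [hB]
    exact hasDerivAt_pi.2 fun i => hd (LinearMap.proj i ∘ₗ π) t
  have h2 : ∀ v, π v = 0 ↔ v ∈ S := fun v => by simp [π]
  have h3 := ODE_solution_unique_univ (v := fun _ => B) (s := fun _ => univ) (t₀ := 0)
    (f := fun s => π (c s)) (g := fun _ => 0) (fun _ => B.lipschitz.lipschitzOnWith)
    (fun t => ⟨h1 t, mem_univ _⟩) (fun t => ⟨by simpa using hasDerivAt_const t 0, mem_univ _⟩)
    ((h2 _).2 h0)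
  exact (h2 _).1 (congrFun h3 t)

end Crest.Agent.R264
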