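import Crest.Agent.R264.P1.FlowA

/-! Row 264, P1: criterion (C): limits of difference quotients of automorphisms generate flows.

`crit_step`: by `M.montel`, `X` is `Hol` and the convergence is locally uniform; choose `r` with
`‖τ⁻¹ • (h z - z) - X x‖ ≤ ε` for `z ∈ U ∩ ball x r`, eventually in `i`.  For `y ∈ U ∩ ball x (r/2)` and
`δ (‖X x‖ + ε) < r/2`, induction on `m` (the point `h^m y` stays in `ball x r`).
`crit_compact`: with `ε = 1` at a base point `x0`, `h^m x0` is in a compact set `K ⊆ U` if `m τ ≤ δ`, so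
`h^m ∈ C0 = {g | g x0 ∈ K}` (compact, `isCompact_fib`); induction on the number `k` of steps:
`m τ ≤ k δ / 2 → h^m ∈ C0^k` (split `m = m1 + m2`, `m1 = ⌊δ/τ⌋`-like, using `τ ≤ δ/2`); negative `m` by
inversion.
`crit`: ultrafilter `𝓤 = Ultrafilter.of l`, `θ t = lim h^⌊t/τ⌋` in `Aut`.  `h i → 1` (`tendsto_of_ap`),
`⌊(s+t)/τ⌋ - ⌊s/τ⌋ - ⌊t/τ⌋ ∈ {0,1}` gives `add`.  In the limit `crit_step` gives
`‖θ t y - y - t • X x‖ ≤ ε t` for `y ∈ W`, `0 ≤ t ≤ δ` (`⌊t/τ⌋ τ → t`); hence `θ t → 1` as `t → 0+`,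
`θ (-t) = (θ t)⁻¹ → 1`, and with `y = θ (-t) x` the left derivative.  Derivative at `t` from `add`. -/

set_option autoImplicit false
open Set Filter Topology Metric Complex

noncomputable section
namespace Crest.Agent.R264.TM
variable (M : TM)

section
variable {ι : Type*} {l : Filter ι} {h : ι → M.Aut} {τ : ι → ℝ} {X : CN M.N → CN M.N}

theorem crit_step [l.NeBot] (hτ : Tendsto τ l (𝓝[>] 0))
    (hb : M.LocBdd l (fun i y => (τ i)⁻¹ • (M.ap (h i) y - y)) M.U)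
    (hp : ∀ y ∈ M.U, Tendsto (fun i => (τ i)⁻¹ • (M.ap (h i) y - y)) l (𝓝 (X y)))
    {x : CN M.N} (hx : x ∈ M.U) {ε : ℝ} (hε : 0 < ε) :
    ∃ δ > 0, ∃ W ∈ 𝓝[M.U] x, W ⊆ M.U ∧ ∀ᶠ i in l, ∀ y ∈ W, ∀ m : ℕ, m * τ i ≤ δ →
      ‖M.ap (h i ^ m) y - y - (m * τ i) • X x‖ ≤ ε * (m * τ i) := by
  obtain ⟨hX, hloc⟩ := M.montel (ROpen.refl _) hb hp
  have hc : ContinuousOn X M.U := hX.continuousOn
  obtain ⟨t, ht, hev⟩ := Metric.tendstoLocallyUniformlyOn_iff.1 hloc (ε / 2) (half_pos hε) x hx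
  have h2 : {z | dist (X z) (X x) < ε / 2} ∈ 𝓝[M.U] x :=
    (hc x hx) (ball_mem_nhds _ (half_pos hε))
  obtain ⟨r, hr, hsub⟩ := Metric.mem_nhdsWithin_iff.1 (inter_mem ht h2)
  have hB : 0 < ‖X x‖ + ε := by positivity
  refine ⟨r / 4 / (‖X x‖ + ε), by positivity, ball x (r / 2) ∩ M.U,
    inter_mem (mem_nhdsWithin_of_mem_nhds (ball_mem_nhds _ (half_pos hr))) self_mem_nhdsWithin,
    inter_subset_right, ?_⟩
  have hpos : ∀ᶠ i in l, 0 < τ i := hτ self_mem_nhdsWithin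
  filter_upwards [hev, hpos] with i hi hτi y hy m
  induction m with
  | zero => intro _; simp [M.ap_one hy.2]
  | succ m ih =>
    intro hm
    push_cast at hm ⊢
    have hm0 : (0 : ℝ) ≤ m * τ i := by positivity
    have hm' : m * τ i ≤ r / 4 / (‖X x‖ + ε) := by nlinarith
    have ih := ih hm'
    have hzU : M.ap (h i ^ m) y ∈ M.U := M.ap_mem _ hy.2
    have hzb : M.ap (h i ^ m) y ∈ ball x r := by
      have h1 : ‖M.ap (h i ^ m) y - y‖ ≤ (m * τ i) * (‖X x‖ + ε) := by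
        calc ‖M.ap (h i ^ m) y - y‖
            = ‖(M.ap (h i ^ m) y - y - (m * τ i) • X x) + (m * τ i) • X x‖ := by
              rw [sub_add_cancel]
          _ ≤ ε * (m * τ i) + (m * τ i) * ‖X x‖ := by
              refine (norm_add_le _ _).trans (add_le_add ih ?_)
              rw [norm_smul, Real.norm_of_nonneg hm0]
          _ = _ := by ring
      have h3 : (m * τ i) * (‖X x‖ + ε) ≤ r / 4 := (le_div_iff₀ hB).1 hm'
      have h4 : dist y x < r / 2 := hy.1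
      have h5 := dist_triangle (M.ap (h i ^ m) y) y x
      rw [dist_eq_norm (M.ap (h i ^ m) y) y] at h5
      rw [mem_ball]
      linarith
    rw [pow_succ', M.ap_mul _ _ hy.2]
    generalize M.ap (h i ^ m) y = z at ih hzU hzb
    obtain ⟨hz1, hz2⟩ := hsub ⟨hzb, hzU⟩
    have h6 : dist ((τ i)⁻¹ • (M.ap (h i) z - z)) (X x) ≤ ε := by
      have h7 := hi z hz1
      have h8 : dist (X z) (X x) < ε / 2 := hz2
      have h9 := dist_triangle_left ((τ i)⁻¹ • (M.ap (h i) z - z)) (X x) (X z)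
      linarith
    have h7 : ‖M.ap (h i) z - z - τ i • X x‖ ≤ ε * τ i := by
      have e : M.ap (h i) z - z - τ i • X x
          = τ i • ((τ i)⁻¹ • (M.ap (h i) z - z) - X x) := by
        rw [smul_sub (τ i), smul_inv_smul₀ hτi.ne']
      rw [e, norm_smul, Real.norm_of_nonneg hτi.le, ← dist_eq_norm, mul_comm]
      exact mul_le_mul_of_nonneg_right h6 hτi.le
    calc ‖M.ap (h i) z - y - ((m + 1) * τ i) • X x‖
        = ‖(M.ap (h i) z - z - τ i • X x) + (z - y - (m * τ i) • X x)‖ := by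
          congr 1
          rw [add_mul, one_mul, add_smul]
          abel
      _ ≤ ε * τ i + ε * (m * τ i) := (norm_add_le _ _).trans (add_le_add h7 ih)
      _ = _ := by ring

theorem crit_compact [l.NeBot] (hτ : Tendsto τ l (𝓝[>] 0))
    (hb : M.LocBdd l (fun i y => (τ i)⁻¹ • (M.ap (h i) y - y)) M.U)
    (hp : ∀ y ∈ M.U, Tendsto (fun i => (τ i)⁻¹ • (M.ap (h i) y - y)) l (𝓝 (X y))) (T : ℝ) :
    ∃ C : Set M.Aut, IsCompact C ∧ ∀ᶠ i in l, ∀ m : ℤ, |(m : ℝ)| * τ i ≤ T → h i ^ m ∈ C := by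
  obtain ⟨x0, hx0⟩ := M.conn.nonempty
  obtain ⟨K, hKn, hK, hKU⟩ := M.exists_compact_nhds hx0 univ_mem
  obtain ⟨r, hr, hrK⟩ := Metric.mem_nhdsWithin_iff.1 hKn
  obtain ⟨δ0, hδ0, W, hW, hWU, hev⟩ := M.crit_step hτ hb hp hx0 one_pos
  have hB : 0 < ‖X x0‖ + 1 := by positivity
  obtain ⟨δ, hδ, hδ1, hδ2⟩ : ∃ δ > 0, δ ≤ δ0 ∧ δ * (‖X x0‖ + 1) ≤ r / 2 :=
    ⟨min δ0 (r / 2 / (‖X x0‖ + 1)), lt_min hδ0 (by positivity), min_le_left _ _,
      (le_div_iff₀ hB).1 (min_le_right _ _)⟩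
  have hC0 : IsCompact {g : M.Aut | M.ap g x0 ∈ K} :=
    M.isCompact_fib hK (fun _ hz => (hKU hz).1) hx0
  have hpos : ∀ᶠ i in l, 0 < τ i := hτ self_mem_nhdsWithin
  have hsm : ∀ᶠ i in l, τ i < δ / 2 :=
    (hτ.mono_right nhdsWithin_le_nhds).eventually (gt_mem_nhds (half_pos hδ))
  have h0 : ∀ᶠ i in l, ∀ m : ℕ, m * τ i ≤ δ → h i ^ m ∈ {g : M.Aut | M.ap g x0 ∈ K} := by
    filter_upwards [hev, hpos] with i hi hτi m hm
    have h1 := hi x0 (mem_of_mem_nhdsWithin hx0 hW) m (hm.trans hδ1)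
    have hm0 : (0 : ℝ) ≤ m * τ i := by positivity
    refine hrK ⟨?_, M.ap_mem _ hx0⟩
    rw [mem_ball, dist_eq_norm]
    calc ‖M.ap (h i ^ m) x0 - x0‖
        = ‖(M.ap (h i ^ m) x0 - x0 - (m * τ i) • X x0) + (m * τ i) • X x0‖ := by
          rw [sub_add_cancel]
      _ ≤ 1 * (m * τ i) + (m * τ i) * ‖X x0‖ := by
          refine (norm_add_le _ _).trans (add_le_add h1 ?_)
          rw [norm_smul, Real.norm_of_nonneg hm0]
      _ = (m * τ i) * (‖X x0‖ + 1) := by ring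
      _ ≤ δ * (‖X x0‖ + 1) := mul_le_mul_of_nonneg_right hm hB.le
      _ < r := by linarith
  have key : ∀ k : ℕ, ∃ C : Set M.Aut, IsCompact C ∧
      ∀ᶠ i in l, ∀ m : ℕ, m * τ i ≤ k * (δ / 2) → h i ^ m ∈ C := by
    intro k
    induction k with
    | zero =>
      refine ⟨_, hC0, h0.mono fun i hi m hm => hi m ?_⟩
      simp only [Nat.cast_zero, zero_mul] at hm
      linarith
    | succ k ih =>
      obtain ⟨C, hC, hCev⟩ := ih
      refine ⟨{g : M.Aut | M.ap g x0 ∈ K} ∪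
        (fun p : M.Aut × M.Aut => p.1 * p.2) '' ({g : M.Aut | M.ap g x0 ∈ K} ×ˢ C),
        hC0.union ((hC0.prod hC).image continuous_mul), ?_⟩
      filter_upwards [h0, hCev, hpos, hsm] with i hi hi' hτi hτs m hm
      by_cases hmδ : m * τ i ≤ δ
      · exact Or.inl (hi m hmδ)
      · right
        rw [not_le] at hmδ
        have h1 : (⌊δ / τ i⌋₊ : ℝ) * τ i ≤ δ :=
          (le_div_iff₀ hτi).1 (Nat.floor_le (by positivity))
        have h2 : δ < (⌊δ / τ i⌋₊ + 1 : ℝ) * τ i :=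
          (div_lt_iff₀ hτi).1 (Nat.lt_floor_add_one _)
        have h3 : ⌊δ / τ i⌋₊ ≤ m := by
          have : (⌊δ / τ i⌋₊ : ℝ) < m := lt_of_mul_lt_mul_right (h1.trans_lt hmδ) hτi.le
          exact_mod_cast this.le
        obtain ⟨m2, rfl⟩ := Nat.exists_eq_add_of_le h3
        refine ⟨(h i ^ ⌊δ / τ i⌋₊, h i ^ m2), ⟨hi _ h1, hi' m2 ?_⟩, (pow_add _ _ _).symm⟩
        push_cast at hm
        nlinarith
  obtain ⟨k, hk⟩ := exists_nat_ge (T / (δ / 2))
  have hk' : T ≤ k * (δ / 2) := (div_le_iff₀ (half_pos hδ)).1 hk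
  obtain ⟨C, hC, hCev⟩ := key k
  refine ⟨C ∪ (fun g : M.Aut => g⁻¹) '' C, hC.union (hC.image continuous_inv), ?_⟩
  filter_upwards [hCev] with i hi m hm
  obtain ⟨n, rfl | rfl⟩ := Int.eq_nat_or_neg m
  · left
    rw [zpow_natCast]
    refine hi n (le_trans ?_ hk')
    simpa using hm
  · right
    rw [zpow_neg, zpow_natCast]
    refine ⟨_, hi n (le_trans ?_ hk'), rfl⟩
    simpa using hm

/-- Criterion (C). -/
theorem crit [l.NeBot] (hτ : Tendsto τ l (𝓝[>] 0))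
    (hb : M.LocBdd l (fun i y => (τ i)⁻¹ • (M.ap (h i) y - y)) M.U)
    (hp : ∀ y ∈ M.U, Tendsto (fun i => (τ i)⁻¹ • (M.ap (h i) y - y)) l (𝓝 (X y))) :
    ∃ θ, M.IsFlow X θ := by
  have hle : (Ultrafilter.of l : Filter ι) ≤ l := Ultrafilter.of_le l
  have hpos : ∀ᶠ i in l, 0 < τ i := hτ self_mem_nhdsWithin
  have hτ0 : Tendsto τ l (𝓝 0) := hτ.mono_right nhdsWithin_le_nhds
  have hfl : ∀ (t : ℝ) (i : ι), 0 < τ i →
      t - τ i < ⌊t / τ i⌋ * τ i ∧ ⌊t / τ i⌋ * τ i ≤ t := fun t i hi => by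
    have h1 : (⌊t / τ i⌋ : ℝ) * τ i ≤ t := (le_div_iff₀ hi).1 (Int.floor_le _)
    have h2 : t < (⌊t / τ i⌋ + 1 : ℝ) * τ i := (div_lt_iff₀ hi).1 (Int.lt_floor_add_one _)
    exact ⟨by linarith, h1⟩
  have hex : ∀ t : ℝ, ∃ g : M.Aut,
      Tendsto (fun i => h i ^ ⌊t / τ i⌋) (Ultrafilter.of l) (𝓝 g) := by
    intro t
    obtain ⟨C, hC, hev⟩ := M.crit_compact hτ hb hp (|t| + 1)
    have hsm : ∀ᶠ i in l, τ i < 1 := hτ0.eventually (gt_mem_nhds one_pos)
    have hmem : ∀ᶠ i in l, h i ^ ⌊t / τ i⌋ ∈ C := by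
      filter_upwards [hev, hpos, hsm] with i hi hτi hτs
      refine hi _ ?_
      obtain ⟨h1, h2⟩ := hfl t i hτi
      rw [← abs_of_pos hτi, ← abs_mul, abs_of_pos hτi, abs_le]
      constructor
      · linarith [neg_abs_le t]
      · linarith [le_abs_self t]
    obtain ⟨g, -, hg⟩ := hC.ultrafilter_le_nhds
      ((Ultrafilter.of l).map fun i => h i ^ ⌊t / τ i⌋) (by
        rw [Ultrafilter.coe_map, le_principal_iff]
        exact hle hmem)
    exact ⟨g, hg⟩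
  choose θ hθ using hex
  have h1 : Tendsto h l (𝓝 1) := M.tendsto_of_ap fun x hx => by
    rw [M.ap_one hx]
    have := (hτ0.smul (hp x hx)).const_add x
    rw [zero_smul, add_zero] at this
    refine this.congr' (hpos.mono fun i hi => ?_)
    simp only []
    rw [smul_inv_smul₀ hi.ne', add_sub_cancel]
  have hadd : ∀ s t, θ (s + t) = θ s * θ t := by
    intro s t
    have he : Tendsto (fun i => h i ^ (⌊(s + t) / τ i⌋ - ⌊s / τ i⌋ - ⌊t / τ i⌋)) l (𝓝 1) := by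
      intro V hV
      rw [mem_map]
      filter_upwards [mem_map.1 (h1 hV)] with i hi
      have e1 : ⌊s / τ i⌋ + ⌊t / τ i⌋ ≤ ⌊(s + t) / τ i⌋ := by
        rw [add_div]; exact Int.le_floor_add _ _
      have e2 : ⌊(s + t) / τ i⌋ - 1 ≤ ⌊s / τ i⌋ + ⌊t / τ i⌋ := by
        rw [add_div]; exact Int.le_floor_add_floor _ _
      have e3 : ⌊(s + t) / τ i⌋ - ⌊s / τ i⌋ - ⌊t / τ i⌋ = 0 ∨
          ⌊(s + t) / τ i⌋ - ⌊s / τ i⌋ - ⌊t / τ i⌋ = 1 := by omega
      show h i ^ (⌊(s + t) / τ i⌋ - ⌊s / τ i⌋ - ⌊t / τ i⌋) ∈ V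
      rcases e3 with e | e
      · rw [e, zpow_zero]; exact mem_of_mem_nhds hV
      · rw [e, zpow_one]; exact hi
    have := ((hθ s).mul (hθ t)).mul (he.mono_left hle)
    rw [mul_one] at this
    refine tendsto_nhds_unique (hθ (s + t)) (this.congr fun i => ?_)
    rw [← zpow_add, ← zpow_add]
    congr 1
    ring
  have hzero : θ 0 = 1 := by
    have := hadd 0 0
    rw [add_zero] at this
    exact left_eq_mul.1 this
  have hest : ∀ x ∈ M.U, ∀ ε > 0, ∃ δ > 0, ∃ W ∈ 𝓝[M.U] x, ∀ y ∈ W, ∀ t : ℝ, 0 ≤ t → t ≤ δ →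
      ‖M.ap (θ t) y - y - t • X x‖ ≤ ε * t := by
    intro x hx ε hε
    obtain ⟨δ, hδ, W, hW, hWU, hev⟩ := M.crit_step hτ hb hp hx hε
    refine ⟨δ, hδ, W, hW, fun y hy t ht htδ => ?_⟩
    have ht1 : Tendsto (fun i => (⌊t / τ i⌋ : ℝ) * τ i) l (𝓝 t) := by
      have h2 : Tendsto (fun i => t - τ i) l (𝓝 t) := by
        simpa using hτ0.const_sub t
      exact tendsto_of_tendsto_of_tendsto_of_le_of_le' h2 tendsto_const_nhds
        (hpos.mono fun i hi => (hfl t i hi).1.le) (hpos.mono fun i hi => (hfl t i hi).2)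
    have ht2 : Tendsto (fun i => M.ap (h i ^ ⌊t / τ i⌋) y) (Ultrafilter.of l)
        (𝓝 (M.ap (θ t) y)) := ((M.continuous_ap (hWU hy)).tendsto _).comp (hθ t)
    refine le_of_tendsto_of_tendsto
      (((ht2.sub_const y).sub ((ht1.mono_left hle).smul_const (X x))).norm)
      ((ht1.mono_left hle).const_mul ε) (hle ?_)
    filter_upwards [hev, hpos] with i hi hτi
    obtain ⟨m, hm⟩ := Int.eq_ofNat_of_zero_le (Int.floor_nonneg.2 (div_nonneg ht hτi.le))
    have h3 := (hfl t i hτi).2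
    rw [hm] at h3
    simp only [hm, zpow_natCast, Int.cast_natCast] at h3 ⊢
    exact hi y hy m (h3.trans htδ)
  have hright : Tendsto θ (𝓝[≥] 0) (𝓝 1) := M.tendsto_of_ap fun x hx => by
    rw [M.ap_one hx, tendsto_iff_norm_sub_tendsto_zero]
    obtain ⟨δ, hδ, W, hW, hE⟩ := hest x hx 1 one_pos
    have h2 : Tendsto (fun t : ℝ => t * (‖X x‖ + 1)) (𝓝[≥] 0) (𝓝 0) := by
      have : Tendsto (fun t : ℝ => t * (‖X x‖ + 1)) (𝓝 0) (𝓝 (0 * (‖X x‖ + 1))) :=
        tendsto_id.mul_const _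
      rw [zero_mul] at this
      exact this.mono_left nhdsWithin_le_nhds
    refine squeeze_zero' (Eventually.of_forall fun _ => norm_nonneg _) ?_ h2
    filter_upwards [Icc_mem_nhdsGE hδ] with t ht
    have h3 := hE x (mem_of_mem_nhdsWithin hx hW) t ht.1 ht.2
    calc ‖M.ap (θ t) x - x‖ = ‖(M.ap (θ t) x - x - t • X x) + t • X x‖ := by rw [sub_add_cancel]
      _ ≤ 1 * t + t * ‖X x‖ := by
          refine (norm_add_le _ _).trans (add_le_add h3 ?_)
          rw [norm_smul, Real.norm_of_nonneg ht.1]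
      _ = _ := by ring
  have hneg : ∀ t, θ (-t) * θ t = 1 := fun t => by rw [← hadd, neg_add_cancel, hzero]
  have hleft : Tendsto θ (𝓝[≤] 0) (𝓝 1) := by
    have h2 : Tendsto (fun t : ℝ => -t) (𝓝[≤] 0) (𝓝[≥] 0) := by
      simpa using tendsto_neg_nhdsLE (a := (0 : ℝ))
    have h3 := (hright.comp h2).inv
    rw [inv_one] at h3
    refine h3.congr fun t => ?_
    exact inv_eq_of_mul_eq_one_right (hneg t)
  have hd0 : ∀ x ∈ M.U, HasDerivAt (fun s => M.ap (θ s) x) (X x) 0 := by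
    intro x hx
    rw [hasDerivAt_iff_isLittleO, Asymptotics.isLittleO_iff]
    intro ε hε
    obtain ⟨δ, hδ, W, hW, hE⟩ := hest x hx ε hε
    rw [← nhdsLE_sup_nhdsGE, eventually_sup]
    simp only [hzero, M.ap_one hx, sub_zero]
    constructor
    · have h2 : Tendsto (fun s => M.ap (θ s) x) (𝓝[≤] 0) (𝓝[M.U] x) := by
        refine tendsto_nhdsWithin_iff.2 ⟨?_, Eventually.of_forall fun s => M.ap_mem _ hx⟩
        have := ((M.continuous_ap hx).tendsto _).comp hleft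
        rwa [M.ap_one hx] at this
      filter_upwards [h2 hW, Icc_mem_nhdsLE (neg_lt_zero.2 hδ)] with s hs hs'
      have h3 := hE _ hs (-s) (by linarith [hs'.2]) (by linarith [hs'.1])
      rw [← M.ap_mul _ _ hx, hneg, M.ap_one hx] at h3
      rw [Real.norm_of_nonpos hs'.2, ← norm_neg]
      refine le_of_eq_of_le (congrArg norm ?_) h3
      rw [neg_smul]
      abel
    · filter_upwards [Icc_mem_nhdsGE hδ] with t ht
      rw [Real.norm_of_nonneg ht.1]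
      exact hE x (mem_of_mem_nhdsWithin hx hW) t ht.1 ht.2
  refine ⟨θ, hzero, hadd, fun x hx t => ?_⟩
  have h2 := hd0 _ (M.ap_mem (θ t) hx)
  rw [← sub_self t] at h2
  have h3 := h2.comp_sub_const t t
  refine h3.congr_of_eventuallyEq (Eventually.of_forall fun s => ?_)
  simp only []
  rw [← M.ap_mul _ _ hx, ← hadd, sub_add_cancel]

end

end Crest.Agent.R264.TM
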