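import Crest.Agent.R264.P1.Top

/-! Row 264, P1: first order calculus of flows.

`locBdd_slope`: compact neighbourhood `W` of `x`; `C = {θ s y | |s| ≤ 1, y ∈ W}` is compact
(`isCompact_ap_image`, `continuous`), `‖X‖ ≤ B` on it, mean value inequality.
`hasFDerivWithinAt`: `θ (t+τ) y - θ t x = (θ τ z - z) + (θ t y - θ t x)` with `z = θ t y → z0 = θ t x`;
`θ τ z - z = τ • X z0 + o(τ)` by the locally uniform convergence of the slopes (`M.montel`).
`D_apply`: differentiate `s ↦ θ (t + s) x = θ t (θ s x)` at `s = 0` in two ways (`hasDerivAt_comp`).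
`fix`: the derivative of `t ↦ θ t x` is `X (θ t x) = D (θ t) x (X x) = 0`.
`eq_of_curve'`: `σ ↦ θ (t - σ) (c σ)` has derivative `-X(..) + D (θ (t-σ)) (X (c σ)) = 0`. -/

set_option autoImplicit false
open Set Filter Topology Metric Complex

noncomputable section
namespace Crest.Agent.R264.TM.IsFlow
variable {M : TM} {θ : ℝ → M.Aut}

section general
variable {X : CN M.N → CN M.N}

theorem congr (hθ : M.IsFlow X θ) {Y : CN M.N → CN M.N} (h : ∀ x ∈ M.U, Y x = X x) :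
    M.IsFlow Y θ := by
  exact ⟨hθ.zero, hθ.add, fun x hx t => by
    rw [h _ (M.ap_mem _ hx)]; exact hθ.deriv x hx t⟩

theorem neg_eq (hθ : M.IsFlow X θ) (t : ℝ) : θ (-t) = (θ t)⁻¹ := by
  refine eq_inv_of_mul_eq_one_left ?_
  rw [← hθ.add, neg_add_cancel, hθ.zero]

theorem continuous (hθ : M.IsFlow X θ) : Continuous θ := by
  exact continuous_iff_continuousAt.2 fun t =>
    M.tendsto_of_ap fun x hx => (hθ.deriv x hx t).continuousAt

theorem continuousOn' (hθ : M.IsFlow X θ) :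
    ContinuousOn (fun z : ℝ × CN M.N => M.ap (θ z.1) z.2) (univ ×ˢ M.U) := by
  exact M.continuousOn_ap.comp ((hθ.continuous.comp continuous_fst).prodMk
    continuous_snd).continuousOn fun z hz => ⟨mem_univ _, hz.2⟩

theorem mem_T (hθ : M.IsFlow X θ) {x : CN M.N} (hx : x ∈ M.U) : X x ∈ M.T x := by
  have := M.isSub.mem_tan_of_hasDerivAt (hθ.deriv x hx 0)
    (Eventually.of_forall fun s => M.ap_mem _ hx)
  rwa [hθ.zero, M.ap_one hx] at this

theorem tendsto_slope (hθ : M.IsFlow X θ) {x : CN M.N} (hx : x ∈ M.U) :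
    Tendsto (fun τ : ℝ => τ⁻¹ • (M.ap (θ τ) x - x)) (𝓝[≠] 0) (𝓝 (X x)) := by
  have := (hθ.deriv x hx 0).tendsto_slope_zero
  simpa only [zero_add, hθ.zero, M.ap_one hx] using this

theorem locBdd_slope (hθ : M.IsFlow X θ) (hX : ContinuousOn X M.U) :
    M.LocBdd (𝓝[≠] (0 : ℝ)) (fun τ y => τ⁻¹ • (M.ap (θ τ) y - y)) M.U := by
  intro x hx
  obtain ⟨W, hWc, hWU, -, hW⟩ := M.isSub.exists_compact_nhds hx self_mem_nhdsWithin
  have hC := M.isCompact_ap_image ((isCompact_Icc (a := (-1 : ℝ)) (b := 1)).image hθ.continuous)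
    hWc hWU
  obtain ⟨B, hB⟩ := hC.exists_bound_of_continuousOn (hX.mono (by
    rintro _ ⟨⟨h, y⟩, ⟨-, hy⟩, rfl⟩
    exact M.ap_mem _ (hWU hy)))
  refine ⟨W, hW, B, ?_⟩
  filter_upwards [mem_nhdsWithin_of_mem_nhds (Icc_mem_nhds (by norm_num : (-1 : ℝ) < 0) one_pos),
    self_mem_nhdsWithin] with τ hτ hτ0
  refine ⟨?_, fun y hy => ?_⟩
  · refine Hol.congr ((((M.hol_ap (θ τ)).sub (Hol.id _)).const_smul ((τ⁻¹ : ℝ) : ℂ)).mono hWU)
      fun y _ => ?_
    simp only [Pi.smul_apply, Complex.coe_smul]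
  · have := (convex_Icc (-1 : ℝ) 1).norm_image_sub_le_of_norm_hasDerivWithin_le
      (f := fun s => M.ap (θ s) y) (f' := fun s => X (M.ap (θ s) y)) (C := B)
      (fun s _ => (hθ.deriv y (hWU hy) s).hasDerivWithinAt)
      (fun s hs => hB _ ⟨(θ s, y), ⟨⟨s, hs, rfl⟩, hy⟩, rfl⟩)
      (show (0 : ℝ) ∈ Icc (-1 : ℝ) 1 from ⟨by norm_num, by norm_num⟩) hτ
    rw [hθ.zero, M.ap_one (hWU hy), sub_zero] at this
    have h0 : 0 < ‖τ‖ := norm_pos_iff.2 hτ0
    rw [norm_smul, norm_inv, inv_mul_le_iff₀ h0, mul_comm]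
    exact this

theorem hasFDerivWithinAt (hθ : M.IsFlow X θ) (hX : ContinuousOn X M.U) {x : CN M.N}
    (hx : x ∈ M.U) (t : ℝ) :
    HasFDerivWithinAt (fun p : ℝ × CN M.N => M.ap (θ p.1) p.2)
      ((ContinuousLinearMap.fst ℝ ℝ (CN M.N)).smulRight (X (M.ap (θ t) x)) +
        ((M.D (M.ap (θ t)) x).restrictScalars ℝ).comp (ContinuousLinearMap.snd ℝ ℝ (CN M.N)))
      (univ ×ˢ M.U) (t, x) := by
  have hz := M.ap_mem (θ t) hx
  have hlu := (M.montel ⟨Subset.rfl, fun _ _ => self_mem_nhdsWithin⟩ (hθ.locBdd_slope hX)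
    fun y hy => hθ.tendsto_slope hy).2
  have hG : HasFDerivWithinAt (M.ap (θ t)) ((M.D (M.ap (θ t)) x).restrictScalars ℝ) M.U x :=
    ((M.hol_ap (θ t)).differentiableWithinAt hx).hasFDerivWithinAt.restrictScalars ℝ
  have h2 : HasFDerivWithinAt (fun p : ℝ × CN M.N => M.ap (θ t) p.2)
      (((M.D (M.ap (θ t)) x).restrictScalars ℝ).comp (ContinuousLinearMap.snd ℝ ℝ (CN M.N)))
      (univ ×ˢ M.U) (t, x) := by
    have h3 : HasFDerivWithinAt (Prod.snd : ℝ × CN M.N → CN M.N)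
      (ContinuousLinearMap.snd ℝ ℝ (CN M.N)) (univ ×ˢ M.U) (t, x) := hasFDerivWithinAt_snd
    exact HasFDerivWithinAt.comp (g := M.ap (θ t)) (t := M.U) (t, x) hG h3 fun z hz => hz.2
  have h1 : HasFDerivWithinAt (fun p : ℝ × CN M.N => M.ap (θ p.1) p.2 - M.ap (θ t) p.2)
      ((ContinuousLinearMap.fst ℝ ℝ (CN M.N)).smulRight (X (M.ap (θ t) x)))
      (univ ×ˢ M.U) (t, x) := by
    rw [hasFDerivWithinAt_iff_isLittleO, Asymptotics.isLittleO_iff]
    intro ε hε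
    obtain ⟨V, hV, hτ⟩ := Metric.tendstoLocallyUniformlyOn_iff.1 hlu (ε / 2) (half_pos hε) _ hz
    have hT : Tendsto (fun p : ℝ × CN M.N => M.ap (θ t) p.2) (𝓝[univ ×ˢ M.U] (t, x))
        (𝓝[M.U] (M.ap (θ t) x)) :=
      tendsto_nhdsWithin_iff.2 ⟨h2.continuousWithinAt,
        eventually_mem_nhdsWithin.mono fun p hp => M.ap_mem _ hp.2⟩
    have hT1 : Tendsto (fun p : ℝ × CN M.N => p.1 - t) (𝓝[univ ×ˢ M.U] (t, x)) (𝓝 0) := by
      have : Tendsto (fun p : ℝ × CN M.N => p.1 - t) (𝓝 (t, x)) (𝓝 (t - t)) :=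
        (continuous_fst.sub continuous_const).tendsto (t, x)
      rw [sub_self] at this
      exact this.mono_left nhdsWithin_le_nhds
    filter_upwards [hT.eventually hV, hT1.eventually (eventually_nhdsWithin_iff.1 hτ),
      ((hX _ hz).tendsto.comp hT).eventually (ball_mem_nhds _ (half_pos hε)),
      self_mem_nhdsWithin] with p a1 a2 a3 a4
    have e : M.ap (θ p.1) p.2 = M.ap (θ (p.1 - t)) (M.ap (θ t) p.2) := by
      rw [← M.ap_mul _ _ a4.2, ← hθ.add, sub_add_cancel]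
    simp only [sub_self, sub_zero, ContinuousLinearMap.smulRight_apply, ContinuousLinearMap.coe_fst',
      Prod.fst_sub]
    by_cases h0 : p.1 - t = 0
    · rw [e, h0, hθ.zero, M.ap_one (M.ap_mem _ a4.2)]
      simp only [sub_self, zero_smul, norm_zero]
      positivity
    · have a5 := a2 h0 _ a1
      have a6 : dist ((p.1 - t)⁻¹ • (M.ap (θ (p.1 - t)) (M.ap (θ t) p.2) - M.ap (θ t) p.2))
          (X (M.ap (θ t) x)) ≤ ε := by
        have := dist_triangle_left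
          ((p.1 - t)⁻¹ • (M.ap (θ (p.1 - t)) (M.ap (θ t) p.2) - M.ap (θ t) p.2))
          (X (M.ap (θ t) x)) (X (M.ap (θ t) p.2))
        have a7 : dist (X (M.ap (θ t) p.2)) (X (M.ap (θ t) x)) < ε / 2 := a3
        linarith
      have e2 : M.ap (θ p.1) p.2 - M.ap (θ t) p.2 - (p.1 - t) • X (M.ap (θ t) x) =
          (p.1 - t) • ((p.1 - t)⁻¹ • (M.ap (θ (p.1 - t)) (M.ap (θ t) p.2) - M.ap (θ t) p.2) -
            X (M.ap (θ t) x)) := by
        rw [smul_sub (p.1 - t), smul_inv_smul₀ h0, e]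
      rw [dist_eq_norm] at a6
      rw [e2, norm_smul, mul_comm]
      exact mul_le_mul a6 (norm_fst_le (p - (t, x))) (norm_nonneg _) hε.le
  refine (h1.add h2).congr (fun p _ => ?_) ?_ <;> simp

theorem hasDerivAt_ap_curve (hθ : M.IsFlow X θ) (hX : ContinuousOn X M.U) {α : ℝ → ℝ}
    {c : ℝ → CN M.N} {a s : ℝ} {v : CN M.N} (hα : HasDerivAt α a s) (hc : HasDerivAt c v s)
    (hU : ∀ᶠ s' in 𝓝 s, c s' ∈ M.U) :
    HasDerivAt (fun s' => M.ap (θ (α s')) (c s'))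
      (a • X (M.ap (θ (α s)) (c s)) + M.D (M.ap (θ (α s))) (c s) v) s := by
  have h1 := (hθ.hasFDerivWithinAt hX hU.self_of_nhds (α s)).comp_hasDerivAt
    (f := fun s' => (α s', c s')) s (hα.prodMk hc) (hU.mono fun s' h => ⟨mem_univ _, h⟩)
  exact h1

theorem D_apply (hθ : M.IsFlow X θ) {x : CN M.N} (hx : x ∈ M.U) (t : ℝ) :
    M.D (M.ap (θ t)) x (X x) = X (M.ap (θ t) x) := by
  have h0 : M.ap (θ 0) x = x := by rw [hθ.zero, M.ap_one hx]
  have h1 := hasDerivAt_comp_curve (f := M.ap (θ t)) (γ := fun s => M.ap (θ s) x)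
    ((M.hol_ap (θ t)).differentiableWithinAt (M.ap_mem _ hx)) (hθ.deriv x hx 0)
    (Eventually.of_forall fun s => M.ap_mem _ hx)
  have h2 : HasDerivAt (fun s => M.ap (θ (t + s)) x) (X (M.ap (θ (t + 0)) x)) 0 :=
    (hθ.deriv x hx (t + 0)).comp_const_add t 0
  simp only [hθ.add t, M.ap_mul _ _ hx] at h2
  have := h1.unique h2
  rwa [h0] at this

theorem fix (hθ : M.IsFlow X θ) {x : CN M.N} (hx : x ∈ M.U) (h0 : X x = 0) (t : ℝ) :
    M.ap (θ t) x = x := by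
  have h1 : ∀ s, HasDerivAt (fun s => M.ap (θ s) x) 0 s := fun s => by
    have := hθ.deriv x hx s
    rwa [← hθ.D_apply hx s, h0, map_zero] at this
  have := is_const_of_deriv_eq_zero (fun s => (h1 s).differentiableAt) (fun s => (h1 s).deriv) t 0
  rwa [hθ.zero, M.ap_one hx] at this

theorem eq_of_curve' (hθ : M.IsFlow X θ) (hX : ContinuousOn X M.U) {c : ℝ → CN M.N} {a b : ℝ}
    (hc : ∀ s ∈ Ioo a b, c s ∈ M.U ∧ HasDerivAt c (X (c s)) s) {s t : ℝ}
    (hs : s ∈ Ioo a b) (ht : t ∈ Ioo a b) : c t = M.ap (θ (t - s)) (c s) := by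
  have h1 : ∀ σ ∈ Ioo a b, HasDerivAt (fun σ => M.ap (θ (t - σ)) (c σ)) 0 σ := by
    intro σ hσ
    have := hθ.hasDerivAt_ap_curve hX ((hasDerivAt_id σ).const_sub t) (hc σ hσ).2
      (Filter.mem_of_superset (isOpen_Ioo.mem_nhds hσ) fun s' h => (hc s' h).1)
    rw [hθ.D_apply (hc σ hσ).1] at this
    simpa using this
  have := isOpen_Ioo.is_const_of_deriv_eq_zero isPreconnected_Ioo
    (fun σ hσ => (h1 σ hσ).differentiableAt.differentiableWithinAt)
    (fun σ hσ => (h1 σ hσ).deriv) ht hs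
  rwa [sub_self, hθ.zero, M.ap_one (hc t ht).1] at this

end general

theorem Ad_self {X : M.VF} (hθ : M.IsFlow X θ) (t : ℝ) : M.Ad (θ t) X = X := by
  refine M.vf_ext fun x hx => ?_
  rw [M.Ad_apply' _ _ hx, hθ.D_apply (M.ap_mem _ hx), M.ap_ap_inv _ hx]

end Crest.Agent.R264.TM.IsFlow
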