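import Crest.Agent.R264.P1.FlowA

/-! Row 264, P1: second order calculus of flows.

`tendsto_slope_D`: `montel_tendsto` for the slopes `f τ = τ⁻¹ • (θ τ - id)` (`locBdd_slope`,
`tendsto_slope`); `D (f τ) a w = τ⁻¹ • (D (θ τ) a w - w)` on tangent vectors (`tD_real_smul`, `tD_sub`).
`hasDerivAt_D`: `D (θ (t+τ)) x v = D (θ τ) z w`, `z = θ t x`, `w = D (θ t) x v` (`D_ap_mul`);
`hasDerivAt_iff_tendsto_slope_zero`.
`hasDerivAt_Ad` at `t = 0`: `(Ad (θ s) Y) y = D (θ s) (x s) (Y (x s))`, `x s = θ (-s) y`;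
slope `= s⁻¹ • (D (θ s) (x s) (Y (x s)) - Y (x s)) + s⁻¹ • (Y (x s) - Y y) → D X y (Y y) - D Y y (X y)`.
General `t`: `Ad (θ (t+s)) Y = Ad (θ s) (Ad (θ t) Y)`, `Ad_lie`, `Ad_self`.
`eq_zero_of_jet`: `fix`; `t ↦ D (θ t) x v` has derivative `D X x (..) = 0`; Cartan. -/

set_option autoImplicit false
open Set Filter Topology Metric Complex

noncomputable section
namespace Crest.Agent.R264.TM.IsFlow
variable {M : TM} {θ : ℝ → M.Aut}

variable {X : M.VF}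

theorem tendsto_slope_D (hθ : M.IsFlow X θ) {x : CN M.N} (hx : x ∈ M.U) {a v : ℝ → CN M.N}
    {w : CN M.N} (ha : Tendsto a (𝓝[≠] 0) (𝓝[M.U] x)) (hv : ∀ᶠ τ in 𝓝[≠] (0 : ℝ), v τ ∈ M.T (a τ))
    (hw : Tendsto v (𝓝[≠] 0) (𝓝 w)) :
    Tendsto (fun τ : ℝ => τ⁻¹ • (M.D (M.ap (θ τ)) (a τ) (v τ) - v τ)) (𝓝[≠] 0)
      (𝓝 (M.D (X : CN M.N → CN M.N) x w)) := by
  have h := (M.montel_tendsto (ROpen.refl M.U) (hθ.locBdd_slope X.2.1.continuousOn)
    (fun y hy => hθ.tendsto_slope hy) hx ha).2 v w hv hw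
  refine h.2.congr' ?_
  filter_upwards [hv, ha.eventually self_mem_nhdsWithin] with τ h1 h2
  have d1 := (M.hol_ap (θ τ)).differentiableWithinAt h2
  have d2 : DifferentiableWithinAt ℂ (fun y : CN M.N => y) M.U (a τ) :=
    differentiableWithinAt_id
  change fderivWithin ℂ _ M.U _ _ = _
  rw [tD_real_smul _ (d1.fun_sub d2) h1, tD_sub d1 d2 h1, tD_id h1]

theorem hasDerivAt_D (hθ : M.IsFlow X θ) {x v : CN M.N} (hx : x ∈ M.U) (hv : v ∈ M.T x) (t : ℝ) :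
    HasDerivAt (fun s => M.D (M.ap (θ s)) x v)
      (M.D (X : CN M.N → CN M.N) (M.ap (θ t) x) (M.D (M.ap (θ t)) x v)) t := by
  rw [hasDerivAt_iff_tendsto_slope_zero]
  have hz := M.ap_mem (θ t) hx
  have hw := M.D_ap_mem (θ t) hx hv
  have h := hθ.tendsto_slope_D hz (a := fun _ => M.ap (θ t) x) (v := fun _ => M.D (M.ap (θ t)) x v)
    (tendsto_nhdsWithin_iff.2 ⟨tendsto_const_nhds, Eventually.of_forall fun _ => hz⟩)
    (Eventually.of_forall fun _ => hw) tendsto_const_nhds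
  refine h.congr fun τ => ?_
  rw [add_comm t τ, hθ.add, M.D_ap_mul _ _ hx hv]

theorem FlowB_hasDerivAt_Ad_zero (hθ : M.IsFlow X θ) (Y : M.VF) {y : CN M.N} (hy : y ∈ M.U) :
    HasDerivAt (fun s => (M.Ad (θ s) Y : CN M.N → CN M.N) y)
      (-((⁅X, Y⁆ : M.VF) : CN M.N → CN M.N) y) 0 := by
  have hc0 : M.ap (θ (-0)) y = y := by rw [neg_zero, hθ.zero, M.ap_one hy]
  have hcU : ∀ s : ℝ, M.ap (θ (-s)) y ∈ M.U := fun s => M.ap_mem _ hy
  have hc : HasDerivAt (fun s : ℝ => M.ap (θ (-s)) y) (-(X : CN M.N → CN M.N) y) 0 := by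
    have := (hθ.deriv y hy (-0)).scomp (0 : ℝ) (hasDerivAt_neg (0 : ℝ))
    rw [hc0] at this
    simpa [Function.comp_def] using this
  have hY := M.hasDerivAt_comp (ROpen.refl M.U) Y.2.1 hc (Eventually.of_forall hcU)
  have ha : Tendsto (fun s : ℝ => M.ap (θ (-s)) y) (𝓝[≠] 0) (𝓝[M.U] y) := by
    refine tendsto_nhdsWithin_iff.2 ⟨?_, Eventually.of_forall hcU⟩
    have := hc.continuousAt.tendsto
    rw [hc0] at this
    exact this.mono_left nhdsWithin_le_nhds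
  have hv : Tendsto (fun s : ℝ => (Y : CN M.N → CN M.N) (M.ap (θ (-s)) y)) (𝓝[≠] 0)
      (𝓝 ((Y : CN M.N → CN M.N) y)) := (Y.2.1.continuousOn y hy).tendsto.comp ha
  have h1 := hθ.tendsto_slope_D hy ha (Eventually.of_forall fun s => Y.2.2.1 _ (hcU s)) hv
  rw [hasDerivAt_iff_tendsto_slope_zero] at hY ⊢
  simp only [hc0] at hY
  have h2 := h1.add hY
  have e : -((⁅X, Y⁆ : M.VF) : CN M.N → CN M.N) y =
      M.D (X : CN M.N → CN M.N) y ((Y : CN M.N → CN M.N) y) +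
        M.D (Y : CN M.N → CN M.N) y (-(X : CN M.N → CN M.N) y) := by
    rw [M.coe_lie, M.br_apply hy, map_neg]
    abel
  rw [e]
  refine h2.congr fun s => ?_
  rw [zero_add, hθ.zero, M.Ad_one, M.Ad_apply' _ _ hy, ← hθ.neg_eq, ← smul_add]
  congr 1
  abel

theorem hasDerivAt_Ad (hθ : M.IsFlow X θ) (Y : M.VF) {y : CN M.N} (hy : y ∈ M.U) (t : ℝ) :
    HasDerivAt (fun s => (M.Ad (θ s) Y : CN M.N → CN M.N) y)
      (-(M.Ad (θ t) ⁅X, Y⁆ : CN M.N → CN M.N) y) t := by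
  have h := hθ.FlowB_hasDerivAt_Ad_zero (M.Ad (θ t) Y) hy
  have e : ⁅X, M.Ad (θ t) Y⁆ = M.Ad (θ t) ⁅X, Y⁆ := by rw [M.Ad_lie, hθ.Ad_self]
  rw [e] at h
  rw [hasDerivAt_iff_tendsto_slope_zero] at h ⊢
  refine h.congr fun τ => ?_
  rw [zero_add, add_comm t τ, hθ.add, M.Ad_mul, hθ.zero, M.Ad_one]

theorem Ad_eq_of_lie (hθ : M.IsFlow X θ) {Y : M.VF} (h : ⁅X, Y⁆ = 0) (t : ℝ) :
    M.Ad (θ t) Y = Y := by
  refine M.vf_ext fun y hy => ?_
  have h1 : ∀ s, HasDerivAt (fun s => (M.Ad (θ s) Y : CN M.N → CN M.N) y) 0 s := fun s => by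
    have := hθ.hasDerivAt_Ad Y hy s
    rw [h, map_zero] at this
    simpa using this
  have h2 := is_const_of_deriv_eq_zero (fun s => (h1 s).differentiableAt)
    (fun s => (h1 s).deriv) t 0
  simpa [hθ.zero, M.Ad_one] using h2

theorem eq_zero_of_jet (hθ : M.IsFlow X θ) {x : CN M.N} (hx : x ∈ M.U)
    (h0 : (X : CN M.N → CN M.N) x = 0)
    (h1 : ∀ v ∈ M.T x, M.D (X : CN M.N → CN M.N) x v = 0) : X = 0 := by
  have hfix := hθ.fix hx h0
  have hD : ∀ t, ∀ v ∈ M.T x, M.D (M.ap (θ t)) x v = v := fun t v hv => by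
    have h2 : ∀ s, HasDerivAt (fun s => M.D (M.ap (θ s)) x v) 0 s := fun s => by
      have h3 := hθ.hasDerivAt_D hx hv s
      have h4 := M.D_ap_mem (θ s) hx hv
      rw [hfix s] at h3 h4
      rwa [h1 _ h4] at h3
    have h5 := is_const_of_deriv_eq_zero (fun s => (h2 s).differentiableAt)
      (fun s => (h2 s).deriv) t 0
    simpa [hθ.zero, M.D_ap_one hx hv] using h5
  have hid : ∀ t, ∀ y ∈ M.U, M.ap (θ t) y = y := fun t =>
    M.cartan_unique (M.hol_ap _) (fun y hy => M.ap_mem _ hy) hx (hfix t) (hD t)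
  refine M.vf_ext fun y hy => ?_
  have h6 := hθ.deriv y hy 0
  rw [hid 0 y hy, show (fun s => M.ap (θ s) y) = fun _ => y from funext fun s => hid s y hy] at h6
  simpa using h6.unique (hasDerivAt_const (0 : ℝ) y)

end Crest.Agent.R264.TM.IsFlow
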