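import Crest.Agent.R264.Aut

/-! Row 264, P1: the automorphism group as a locally compact topological group.

The topology is induced by `h ↦ (h, h⁻¹) ∈ C(U,U) × C(U,U)` (compact-open topology).  `U` is locally
compact (`M.isSub.locallyCompactSpace`), so composition (`ContinuousMap.continuous_comp'`) and
evaluation (`continuous_eval`) are continuous, `C(U,U)` is second countable.
Convergence in `C(U,U)` is locally uniform convergence
(`ContinuousMap.tendsto_iff_tendstoLocallyUniformly`), which follows from pointwise convergence by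
`M.montel` + `locBdd_ap` (treat `l = ⊥` separately).  Compactness: `isCompact_iff_ultrafilter_le_nhds`
with `M.proper` (for `K ∪ L`) ; the limit is again in the set: choose `x j ∈ L`, take its ultralimit and
use `tendsto_ap`.  `tendsto_of_ap`: `tendsto_iff_ultrafilter`, eventually in a compact set
`isCompact_fib`, the limit is `g` by `aut_ext`. -/

set_option autoImplicit false
open Set Filter Topology Metric Complex

noncomputable section
namespace Crest.Agent.R264.TM
variable (M : TM)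

instance locallyCompactSpace_U : LocallyCompactSpace M.U := M.isSub.locallyCompactSpace

/-- An automorphism as a continuous self-map of `U`. -/
def cm (h : M.Aut) : C(M.U, M.U) where
  toFun x := (h : Equiv.Perm M.U) x
  continuous_toFun := by
    refine continuous_induced_rng.2 ?_
    refine (continuousOn_iff_continuous_restrict.1 (M.hol_ap h).continuousOn).congr fun x => ?_
    exact M.ap_eq h x.2

theorem cm_coe (h : M.Aut) (x : M.U) : (M.cm h x : CN M.N) = M.ap h x := (M.ap_eq h x.2).symm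

theorem cm_mul (g h : M.Aut) : M.cm (g * h) = (M.cm g).comp (M.cm h) := rfl

instance topAut : TopologicalSpace M.Aut :=
  TopologicalSpace.induced (fun h => (M.cm h, M.cm h⁻¹)) inferInstance

theorem isEmbedding_cm : IsEmbedding (fun h : M.Aut => (M.cm h, M.cm h⁻¹)) := by
  refine ⟨⟨rfl⟩, fun g h e => M.aut_ext fun x hx => ?_⟩
  have e1 : M.cm g = M.cm h := congrArg Prod.fst e
  rw [← M.cm_coe g ⟨x, hx⟩, ← M.cm_coe h ⟨x, hx⟩, e1]

theorem top_continuous_cm : Continuous M.cm :=
  continuous_fst.comp M.isEmbedding_cm.continuous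

theorem top_continuous_cm_inv : Continuous fun h : M.Aut => M.cm h⁻¹ :=
  continuous_snd.comp M.isEmbedding_cm.continuous

instance topGroupAut : IsTopologicalGroup M.Aut := by
  refine { continuous_mul := ?_, continuous_inv := ?_ }
  · refine continuous_induced_rng.2 (Continuous.prodMk ?_ ?_)
    · exact (M.top_continuous_cm.comp continuous_fst).compCM
        (M.top_continuous_cm.comp continuous_snd)
    · simp only [mul_inv_rev, M.cm_mul]
      exact (M.top_continuous_cm_inv.comp continuous_snd).compCM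
        (M.top_continuous_cm_inv.comp continuous_fst)
  · refine continuous_induced_rng.2 (Continuous.prodMk M.top_continuous_cm_inv ?_)
    simp only [inv_inv]
    exact M.top_continuous_cm

instance t2Aut : T2Space M.Aut := M.isEmbedding_cm.t2Space

instance secondCountableAut : SecondCountableTopology M.Aut := by
  exact M.isEmbedding_cm.secondCountableTopology

theorem top_continuous_ap {x : CN M.N} (hx : x ∈ M.U) :
    Continuous fun h : M.Aut => M.ap h x := by
  have h1 : Continuous fun h : M.Aut => ((M.cm h ⟨x, hx⟩ : M.U) : CN M.N) :=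
    continuous_subtype_val.comp ((continuous_eval_const _).comp M.top_continuous_cm)
  exact h1.congr fun h => M.cm_coe h ⟨x, hx⟩

theorem tendsto_ap {ι : Type*} {l : Filter ι} {h : ι → M.Aut} {g : M.Aut} (hh : Tendsto h l (𝓝 g))
    {a : ι → CN M.N} {x : CN M.N} (hx : x ∈ M.U) (ha : Tendsto a l (𝓝[M.U] x)) :
    Tendsto (fun i => M.ap (h i) (a i)) l (𝓝 (M.ap g x)) := by
  rcases l.eq_or_neBot with rfl | hl
  · exact tendsto_bot
  exact (M.montel_tendsto (ROpen.refl _) (M.locBdd_ap l h)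
    (fun y hy => ((M.top_continuous_ap hy).tendsto g).comp hh) hx ha).1

theorem continuous_ap {x : CN M.N} (hx : x ∈ M.U) : Continuous fun h : M.Aut => M.ap h x := by
  exact M.top_continuous_ap hx

theorem continuousOn_ap :
    ContinuousOn (fun p : M.Aut × CN M.N => M.ap p.1 p.2) (univ ×ˢ M.U) := by
  intro p hp
  exact M.tendsto_ap (continuous_fst.continuousWithinAt (s := univ ×ˢ M.U) (x := p)) hp.2
    (continuous_snd.continuousWithinAt.tendsto_nhdsWithin fun q hq => hq.2)

theorem top_tendsto_cm {ι : Type*} {l : Filter ι} {h : ι → M.Aut} {g : M.Aut}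
    (h1 : ∀ x ∈ M.U, Tendsto (fun i => M.ap (h i) x) l (𝓝 (M.ap g x))) :
    Tendsto (fun i => M.cm (h i)) l (𝓝 (M.cm g)) := by
  rcases l.eq_or_neBot with rfl | hl
  · exact tendsto_bot
  have h2 := tendstoLocallyUniformlyOn_iff_tendstoLocallyUniformly_comp_coe.1
    (M.montel (ROpen.refl _) (M.locBdd_ap l h) h1).2
  rw [ContinuousMap.tendsto_iff_tendstoLocallyUniformly, Metric.tendstoLocallyUniformly_iff]
  intro ε hε x
  obtain ⟨t, ht, h3⟩ := Metric.tendstoLocallyUniformly_iff.1 h2 ε hε x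
  refine ⟨t, ht, h3.mono fun i hi y hy => ?_⟩
  rw [Subtype.dist_eq, M.cm_coe, M.cm_coe]
  exact hi y hy

theorem top_exists_compact {y : CN M.N} (hy : y ∈ M.U) :
    ∃ K : Set (CN M.N), IsCompact K ∧ K ⊆ M.U ∧ K ∈ 𝓝[M.U] y := by
  obtain ⟨K, hK, hKn⟩ := exists_compact_mem_nhds (⟨y, hy⟩ : M.U)
  refine ⟨Subtype.val '' K, hK.image continuous_subtype_val, Subtype.coe_image_subset _ _, ?_⟩
  rw [nhdsWithin_eq_map_subtype_coe hy]
  exact image_mem_map hKn

theorem tendsto_of_ap_of_inv {ι : Type*} {l : Filter ι} {h : ι → M.Aut} {g : M.Aut}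
    (h1 : ∀ x ∈ M.U, Tendsto (fun i => M.ap (h i) x) l (𝓝 (M.ap g x)))
    (h2 : ∀ x ∈ M.U, Tendsto (fun i => M.ap (h i)⁻¹ x) l (𝓝 (M.ap g⁻¹ x))) :
    Tendsto h l (𝓝 g) := by
  exact M.isEmbedding_cm.tendsto_nhds_iff.2
    ((M.top_tendsto_cm h1).prodMk_nhds (M.top_tendsto_cm h2))

/-- Properness. -/
theorem isCompact_hit {K L : Set (CN M.N)} (hK : IsCompact K) (hKU : K ⊆ M.U) (hL : IsCompact L)
    (hLU : L ⊆ M.U) : IsCompact {h : M.Aut | ∃ x ∈ L, M.ap h x ∈ K} := by
  refine isCompact_iff_ultrafilter_le_nhds'.2 fun f hf => ?_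
  obtain ⟨g, g1, g2⟩ := M.proper f id (hK.union hL) (union_subset hKU hLU)
    (mem_of_superset hf fun h ⟨x, hx, hx'⟩ => ⟨x, Or.inr hx, Or.inl hx'⟩)
  have hg : Tendsto id (f : Filter M.Aut) (𝓝 g) := M.tendsto_of_ap_of_inv g1 g2
  refine ⟨g, ?_, hg⟩
  have hc : ∀ h : M.Aut, ∃ x, h ∈ {h : M.Aut | ∃ x ∈ L, M.ap h x ∈ K} → x ∈ L ∧ M.ap h x ∈ K :=
    fun h => by
      by_cases hh : h ∈ {h : M.Aut | ∃ x ∈ L, M.ap h x ∈ K}
      · obtain ⟨x, hx⟩ := hh
        exact ⟨x, fun _ => hx⟩
      · exact ⟨0, fun h' => absurd h' hh⟩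
  choose x hx using hc
  have hev : ∀ᶠ h in (f : Filter M.Aut), x h ∈ L ∧ M.ap h (x h) ∈ K := mem_of_superset hf hx
  obtain ⟨x₀, hx₀, hlim⟩ := isCompact_iff_ultrafilter_le_nhds'.1 hL (f.map x)
    (hev.mono fun h hh => hh.1)
  have hlim' : Tendsto x (f : Filter M.Aut) (𝓝[M.U] x₀) :=
    tendsto_nhdsWithin_iff.2 ⟨hlim, hev.mono fun h hh => hLU hh.1⟩
  exact ⟨x₀, hx₀, hK.isClosed.mem_of_tendsto (M.tendsto_ap hg (hLU hx₀) hlim')
    (hev.mono fun h hh => hh.2)⟩

theorem isCompact_fib {K : Set (CN M.N)} (hK : IsCompact K) (hKU : K ⊆ M.U) {x : CN M.N}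
    (hx : x ∈ M.U) : IsCompact {h : M.Aut | M.ap h x ∈ K} := by
  simpa using M.isCompact_hit hK hKU isCompact_singleton (singleton_subset_iff.2 hx)

instance locallyCompactAut : LocallyCompactSpace M.Aut := by
  haveI : WeaklyLocallyCompactSpace M.Aut := ⟨fun g => by
    obtain ⟨x, hx⟩ := M.conn.nonempty
    obtain ⟨K, hK, hKU, hKn⟩ := M.top_exists_compact (M.ap_mem g hx)
    refine ⟨_, M.isCompact_fib hK hKU hx, ?_⟩
    have h1 : Tendsto (fun h : M.Aut => M.ap h x) (𝓝 g) (𝓝[M.U] (M.ap g x)) :=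
      tendsto_nhdsWithin_iff.2 ⟨(M.continuous_ap hx).tendsto g,
        Eventually.of_forall fun h => M.ap_mem h hx⟩
    exact h1 hKn⟩
  infer_instance

/-- Pointwise convergence is convergence in `Aut`. -/
theorem tendsto_of_ap {ι : Type*} {l : Filter ι} {h : ι → M.Aut} {g : M.Aut}
    (h1 : ∀ x ∈ M.U, Tendsto (fun i => M.ap (h i) x) l (𝓝 (M.ap g x))) : Tendsto h l (𝓝 g) := by
  refine (tendsto_iff_ultrafilter _ _ _).2 fun u hu => ?_
  obtain ⟨x, hx⟩ := M.conn.nonempty
  obtain ⟨K, hK, hKU, hKn⟩ := M.top_exists_compact (M.ap_mem g hx)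
  have h2 : Tendsto (fun i => M.ap (h i) x) (u : Filter ι) (𝓝[M.U] (M.ap g x)) :=
    tendsto_nhdsWithin_iff.2 ⟨(h1 x hx).mono_left hu, Eventually.of_forall fun i => M.ap_mem _ hx⟩
  obtain ⟨g', g1, g2⟩ := M.proper u h (hK.union isCompact_singleton)
    (union_subset hKU (singleton_subset_iff.2 hx))
    (mem_of_superset (h2 hKn) fun i hi => ⟨x, Or.inr rfl, Or.inl hi⟩)
  have e : g' = g := M.aut_ext fun y hy => tendsto_nhds_unique (g1 y hy) ((h1 y hy).mono_left hu)
  subst e
  exact M.tendsto_of_ap_of_inv g1 g2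

/-- The image of a compact set under a compact set of automorphisms is compact. -/
theorem isCompact_ap_image {C : Set M.Aut} (hC : IsCompact C) {L : Set (CN M.N)} (hL : IsCompact L)
    (hLU : L ⊆ M.U) : IsCompact ((fun p : M.Aut × CN M.N => M.ap p.1 p.2) '' (C ×ˢ L)) :=
  (hC.prod hL).image_of_continuousOn (M.continuousOn_ap.mono (prod_mono (subset_univ _) hLU))

/-- The adjoint action is continuous pointwise (use `montel_tendsto` with the moving point
`ap (h i)⁻¹ y` and the moving vector `Y (ap (h i)⁻¹ y)`). -/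
theorem continuous_Ad_apply (Y : M.VF) {y : CN M.N} (hy : y ∈ M.U) :
    Continuous fun h : M.Aut => (M.Ad h Y : CN M.N → CN M.N) y := by
  simp only [M.Ad_apply' _ Y hy]
  refine continuous_iff_continuousAt.2 fun g => ?_
  have ha : Tendsto (fun h : M.Aut => M.ap h⁻¹ y) (𝓝 g) (𝓝[M.U] (M.ap g⁻¹ y)) :=
    tendsto_nhdsWithin_iff.2 ⟨((M.continuous_ap hy).comp continuous_inv).tendsto g,
      Eventually.of_forall fun h => M.ap_mem _ hy⟩
  exact ((M.montel_tendsto (ROpen.refl _) (M.locBdd_ap (𝓝 g) id)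
    (fun x hx => (M.continuous_ap hx).tendsto g) (M.ap_mem g⁻¹ hy) ha).2
    (fun h => (Y : CN M.N → CN M.N) (M.ap h⁻¹ y)) _
    (Eventually.of_forall fun h => Y.2.2.1 _ (M.ap_mem _ hy))
    ((Y.2.1.continuousOn _ (M.ap_mem g⁻¹ hy)).tendsto.comp ha)).2

end Crest.Agent.R264.TM
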